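import Vale.Agent.P095.All.Square.Respects
import Vale.Agent.P095.Amen.Coin.Atom
import Vale.Agent.P095.Amen.Square.Full

/-!
# P095 Square: the guard for a respected bank

`(1 + T T*)⁻¹ T` moves little outside a set which every state makes tiny; the guard hides that set.
-/

namespace Vale.Agent.P095.All.Square

open Vale.Agent.P101.KR Finset
open Vale.Agent.P095.Amen hiding Setting LettersTarget SquareTarget CoinTarget
open Vale.Agent.P095.Amen.Square
open scoped CStarAlgebra

noncomputable section

set_option linter.unusedSectionVars false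

/-- A state moved by an automorphism which keeps the subalgebra. -/
def pushDim {F : Type} [CStarAlgebra F] {B : StarSubalgebra ℂ F} (d : Dim B) (f : F ≃⋆ₐ[ℂ] F)
    (hf : ∀ x ∈ B, f x ∈ B) : Dim B where
  d u := d.d (f u)
  one := by rw [map_one, d.one]
  mono u v hu hv h := by
    have hp : ∀ w, PosIn B w → PosIn B (f w) := fun w hw => by
      obtain ⟨hwB, c, hc, e⟩ := hw
      exact ⟨hf w hwB, f c, hf c hc, by rw [e, map_mul, map_star]⟩
    refine d.mono (fun i => f (u i)) (fun j => f (v j)) (fun i => hp _ (hu i))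
      (fun j => hp _ (hv j)) fun ε hε => ?_
    obtain ⟨x, hxB, hx⟩ := h ε hε
    refine ⟨fun j i => f (x j i), fun j i => hf _ (hxB j i), fun i i' => ?_⟩
    have e : f ((∑ j, star (x j i) * v j * x j i') - if i = i' then u i else 0) =
        (∑ j, star (f (x j i)) * f (v j) * f (x j i')) - if i = i' then f (u i) else 0 := by
      rw [map_sub, map_sum, apply_ite f, map_zero]
      simp only [map_mul, map_star]
    show ‖(∑ j, star (f (x j i)) * f (v j) * f (x j i')) - if i = i' then f (u i) else 0‖ ≤ ε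
    rw [← e]
    exact (NonUnitalStarAlgHom.norm_map f.toStarAlgHom f.injective _).le.trans (hx i i')

variable {F : Type} [CStarAlgebra F] [PartialOrder F] [StarOrderedRing F]

theorem commute_of_mem {s : Set F} {a : F} (ha : IsSelfAdjoint a) (h : ∀ x ∈ s, Commute a x) {x : F}
    (hx : x ∈ Cl s) : Commute a x := by
  have hc : IsClosed (StarSubalgebra.centralizer ℂ ({a} : Set F) : Set F) := by
    rw [StarSubalgebra.coe_centralizer]
    exact Set.isClosed_centralizer _
  have := Cl_le hc (fun y hy => (StarSubalgebra.mem_centralizer_iff ℂ).2 fun g hg => by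
    rw [Set.mem_singleton_iff.1 hg, ha.star_eq]
    exact ⟨h y hy, h y hy⟩) hx
  exact ((StarSubalgebra.mem_centralizer_iff ℂ).1 this a rfl).1

/-- Two inverses `(1 + T T*)⁻¹ T` differ little outside where their sources differ. -/
theorem diff_props {T T' : F} (I : InvData (1 + T * star T)) (I' : InvData (1 + T' * star T')) :
    I'.inv * T' - I.inv * T = I'.inv * (T' - T) - I'.inv * (T' - T) * (star T * I.inv * T)
        - I'.inv * T' * star (T' - T) * (I.inv * T) ∧
      (I'.inv * T' - I.inv * T) * star (I'.inv * T' - I.inv * T) ≤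
        (6 : ℝ) • (I'.inv * ((T' - T) * star (T' - T)) * I'.inv) +
          (3 : ℝ) • (I'.inv * T' * (star (T' - T) * (T' - T)) * star (I'.inv * T')) := by
  have e : I'.inv * T' - I.inv * T = I'.inv * (T' - T) - I'.inv * (T' - T) * (star T * I.inv * T)
      - I'.inv * T' * star (T' - T) * (I.inv * T) := by
    have e1 : I'.inv * ((1 + T * star T) - (1 + T' * star T')) * (I.inv * T) =
        I'.inv * T - I.inv * T := by
      calc _ = I'.inv * ((1 + T * star T) * I.inv) * T -
            (I'.inv * (1 + T' * star T')) * (I.inv * T) := by noncomm_ring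
        _ = I'.inv * T - I.inv * T := by rw [I.right, I'.left, mul_one, one_mul]
    calc I'.inv * T' - I.inv * T = I'.inv * (T' - T) + (I'.inv * T - I.inv * T) := by noncomm_ring
      _ = _ := by rw [← e1, star_sub]; noncomm_ring
  refine ⟨e, ?_⟩
  rw [e]
  set V := T' - T
  set X := star T * I.inv * T
  set a := I'.inv * V with ha
  set c := I'.inv * T' * star V * (I.inv * T) with hc
  have hTD : T * star T ≤ 1 + T * star T := le_add_of_nonneg_left zero_le_one
  have hX : ‖X‖ ≤ 1 := I.norm_star_T hTD
  have hIT : ‖I.inv * T‖ ≤ 1 := by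
    refine (I.norm_mul_le zero_le_one ?_).trans_eq Real.sqrt_one
    rwa [one_smul]
  have haa : a * star a = I'.inv * (V * star V) * I'.inv := by
    rw [ha, star_mul, I'.star_inv]; simp only [mul_assoc]
  have hbb : a * X * star (a * X) ≤ a * star a := by
    have h := star_right_conjugate_le_conjugate (mul_star_self_le_one hX) a
    rw [one_pow, one_smul, mul_one] at h
    refine le_of_eq_of_le ?_ h
    rw [star_mul]; simp only [mul_assoc]
  have hcc : c * star c ≤ I'.inv * T' * (star V * V) * star (I'.inv * T') := by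
    have h := star_right_conjugate_le_conjugate (mul_star_self_le_one hIT) (I'.inv * T' * star V)
    rw [one_pow, one_smul, mul_one] at h
    refine le_trans (le_of_eq ?_) (h.trans_eq ?_)
    · rw [hc]; simp only [star_mul, mul_assoc]
    · simp only [star_mul, star_star, mul_assoc]
  have h3 : (a - a * X - c) * star (a - a * X - c) ≤
      (3 : ℕ) • (a * star a + a * X * star (a * X) + c * star c) := by
    rw [← sub_nonneg]
    refine le_of_le_of_eq (add_nonneg (add_nonneg (mul_star_self_nonneg (a + a * X))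
      (mul_star_self_nonneg (a + c))) (mul_star_self_nonneg (a * X - c))) ?_
    simp only [star_add, star_sub]
    noncomm_ring
  rw [← Nat.cast_smul_eq_nsmul ℝ] at h3
  refine h3.trans ?_
  push_cast
  refine (smul_le_smul_of_nonneg_left (add_le_add (add_le_add le_rfl hbb) hcc)
    (by norm_num)).trans_eq ?_
  rw [haa, smul_add, smul_add, ← add_smul]
  norm_num

/-- A positive contraction is above its square. -/
theorem mul_self_le {h : F} (h0 : 0 ≤ h) (h1 : h ≤ 1) : h * h ≤ h :=
  commute_mul_le h0 h1 (Commute.refl h)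

section bank

variable {G : Type} {L : ℕ} {qm qp εr ε : ℝ} {β : G → F ≃⋆ₐ[ℂ] F} {S : Finset G}
  {b : Bank (StarAlgEquiv.refl ℂ F) L qm qp εr} (hR : Respects β S ε b)
include hR

theorem src_map (g : G) {l : Fin L} {x : F} (h : b.Src l x) : b.Src l (β g x) :=
  ⟨hR.mem g l x h.mem, by rw [← hR.fix_P g l, ← map_mul, h.mul_P],
    by rw [← hR.fix_P g l, ← map_mul, h.P_mul, map_zero],
    by rw [← hR.fix_C g l, ← map_mul, h.C_mul, map_zero]⟩

theorem supp_map (g : G) {x : F} (hx : x ∈ Cl b.supp) : β g x ∈ Cl b.supp := by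
  refine (Cl_le (S := (Cl b.supp).comap (β g).toStarAlgHom)
    ((isClosed_Cl _).preimage (map_continuous (β g).toStarAlgHom)) (fun a ha => ?_)) hx
  obtain ⟨l, hl⟩ := Set.mem_iUnion.1 ha
  exact b.le_supp l (hR.mem g l a (subset_Cl _ hl))

theorem map_G (g : G) (l : Fin L) : β g (b.G l) = b.G l :=
  fixed_cfc _ (continuous_bump _) (b.sa_one_sub_P l) (by rw [map_sub, map_one, hR.fix_P])

omit hR in
theorem map_oth (σ : F ≃⋆ₐ[ℂ] F) {f : Fin L → F} (hf : ∀ j, σ (f j) = f j) (l : Fin L) :
    σ (oth f l) = oth f l := by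
  rw [oth, map_list_prod, List.map_map]
  congr 1
  refine List.map_congr_left fun j _ => ?_
  show σ (if j = l then 1 else f j) = _
  split_ifs
  exacts [map_one σ, hf j]

theorem map_others (g : G) (l : Fin L) : β g (b.others l) = b.others l :=
  map_oth (β g) (hR.fix_C g) l

theorem map_comb (g : G) (x : Fin L → F) : β g (b.comb x) = b.comb fun l => β g (x l) := by
  simp only [Bank.comb, map_sum, map_mul, Bank.c, map_oth (β g) (map_G hR g)]

end bank

section bank

variable {σ : F ≃⋆ₐ[ℂ] F} {L : ℕ} {qm qp εr : ℝ} (b : Bank σ L qm qp εr)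

theorem comb_mul_star₂ {x x' : Fin L → F} (h : ∀ l, b.Src l (x l)) (h' : ∀ l, b.Src l (x' l)) :
    b.comb x * star (b.comb x') = ∑ l, b.c l * (x l * star (x' l)) * b.c l := by
  simp only [Bank.comb, star_sum, mul_sum, sum_mul]
  refine sum_congr rfl fun l _ => ?_
  rw [sum_eq_single l]
  · rw [star_mul, b.c_star]; simp only [mul_assoc]
  · intro m _ hm
    rw [star_mul, b.c_star, (b.commute_c (star_mem (h' l).mem)).eq]
    calc b.c m * x m * (b.c l * star (x' l)) = b.c m * (x m * b.c l) * star (x' l) := by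
          simp only [mul_assoc]
      _ = 0 := by rw [(h m).mul_c hm, mul_zero, zero_mul]
  · simp

theorem commute_G_src₂ {m : Fin L} {x x' : F} (h : b.Src m x) (h' : b.Src m x') (j : Fin L) :
    Commute (b.G j) (x * star x') := by
  rcases eq_or_ne j m with rfl | hj
  · have e := congrArg star h'.G_mul
    rw [star_mul, b.G_star j] at e
    show b.G j * (x * star x') = x * star x' * b.G j
    rw [← mul_assoc, h.G_mul, mul_assoc, e]
  · exact b.comm j m hj _ (b.G_mem j) _ (mul_mem h.mem (star_mem h'.mem))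

theorem commute_C_src₂ {m : Fin L} {x x' : F} (h : b.Src m x) (h' : b.Src m x') (j : Fin L) :
    Commute (b.C j) (x * star x') := by
  rcases eq_or_ne j m with rfl | hj
  · have e := congrArg star h'.C_mul
    rw [star_mul, (IsSelfAdjoint.of_nonneg (b.C_pos j).1).star_eq, star_zero] at e
    show b.C j * (x * star x') = x * star x' * b.C j
    rw [← mul_assoc, h.C_mul, mul_assoc, e, zero_mul, mul_zero]
  · exact b.comm j m hj _ (b.C_mem j) _ (mul_mem h.mem (star_mem h'.mem))

theorem commute_G_comb {x x' : Fin L → F} (h : ∀ l, b.Src l (x l)) (h' : ∀ l, b.Src l (x' l))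
    (j : Fin L) : Commute (b.G j) (b.comb x * star (b.comb x')) := by
  have hc : ∀ l, Commute (b.G j) (b.c l) := fun l => commute_oth fun i _ => b.G_commute j i
  rw [comb_mul_star₂ b h h']
  exact Commute.sum_right _ _ _ fun l _ =>
    ((hc l).mul_right (commute_G_src₂ b (h l) (h' l) j)).mul_right (hc l)

theorem commute_others_comb {x x' : Fin L → F} (h : ∀ l, b.Src l (x l)) (h' : ∀ l, b.Src l (x' l))
    (l : Fin L) : Commute (b.others l) (b.comb x * star (b.comb x')) := by
  rw [comb_mul_star₂ b h h']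
  exact Commute.sum_right _ _ _ fun m _ => ((b.commute_others_c l m).mul_right
    (commute_oth fun j _ => (commute_C_src₂ b (h m) (h' m) j).symm).symm).mul_right
    (b.commute_others_c l m)

variable {b}

/-- What commutes with every product of a combination and an adjoint commutes with the square of
the difference. -/
theorem commute_diff {a : F} {x x' : Fin L → F} (h : ∀ l, b.Src l (x l)) (h' : ∀ l, b.Src l (x' l))
    (ha : ∀ u v : Fin L → F, (∀ l, b.Src l (u l)) → (∀ l, b.Src l (v l)) →
      Commute a (b.comb u * star (b.comb v)))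
    (I : InvData (1 + b.comb x * star (b.comb x))) (I' : InvData (1 + b.comb x' * star (b.comb x'))) :
    Commute a ((I'.inv * b.comb x' - I.inv * b.comb x) *
      star (I'.inv * b.comb x' - I.inv * b.comb x)) := by
  have hI : Commute a I.inv := I.commute_inv ((Commute.one_right a).add_right (ha x x h h))
  have hI' : Commute a I'.inv := I'.commute_inv ((Commute.one_right a).add_right (ha x' x' h' h'))
  have e : (I'.inv * b.comb x' - I.inv * b.comb x) * star (I'.inv * b.comb x' - I.inv * b.comb x) =
      I'.inv * (b.comb x' * star (b.comb x')) * I'.inv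
        - I'.inv * (b.comb x' * star (b.comb x)) * I.inv
        - I.inv * (b.comb x * star (b.comb x')) * I'.inv
        + I.inv * (b.comb x * star (b.comb x)) * I.inv := by
    rw [star_sub, star_mul, star_mul, I.star_inv, I'.star_inv]; noncomm_ring
  rw [e]
  exact ((((hI'.mul_right (ha x' x' h' h')).mul_right hI').sub_right
    ((hI'.mul_right (ha x' x h' h)).mul_right hI)).sub_right
    ((hI.mul_right (ha x x' h h')).mul_right hI')).add_right
    ((hI.mul_right (ha x x h h)).mul_right hI)

/-- The square of the difference exceeds `δ` only on a set which every state makes tiny. -/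
theorem dim_cut_diff {x x' : Fin L → F} (h : ∀ l, b.Src l (x l)) (h' : ∀ l, b.Src l (x' l))
    {ε δ : ℝ} (hε : 0 < ε) (hd : ∀ l, ‖x' l - x l‖ ≤ ε) (hδ : 0 < δ) (k : ℕ)
    (hk : ε ^ 2 * k < δ / 10) (hqp : 0 ≤ qp) (hLq : (L : ℝ) * qp ≤ 1 / 6)
    (I : InvData (1 + b.comb x * star (b.comb x))) (I' : InvData (1 + b.comb x' * star (b.comb x')))
    (d : Dim (Cl b.supp)) :
    d.d (cut δ ((I'.inv * b.comb x' - I.inv * b.comb x) *
      star (I'.inv * b.comb x' - I.inv * b.comb x))) ≤ 2 * (1 / 6) ^ (k + 1) := by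
  set V := (b.comb x') - (b.comb x)
  set u : Fin L → F := fun l => ε⁻¹ • (x' l - x l)
  have hu : ∀ l, b.Src l (u l) := fun l => ((h' l).sub (h l)).smul _
  have hu1 : ∀ l, ‖u l‖ ≤ 1 := fun l => by
    rw [norm_smul, Real.norm_of_nonneg (inv_nonneg.2 hε.le), inv_mul_le_iff₀ hε, mul_one]
    exact hd l
  have eV : V = ε • b.comb u := by
    simp only [V, u, Bank.comb, smul_sum, ← mul_smul_comm, smul_smul,
      mul_inv_cancel₀ hε.ne', one_smul, mul_sub, sum_sub_distrib]
  have hT : (b.comb x) ∈ Cl b.supp := b.comb_mem fun l => (h l).mem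
  have hT' : (b.comb x') ∈ Cl b.supp := b.comb_mem fun l => (h' l).mem
  have hV : V ∈ Cl b.supp := sub_mem hT' hT
  have hD : ∀ {a : F}, a ∈ Cl b.supp → 1 + a * star a ∈ Cl b.supp := fun ha =>
    add_mem (one_mem _) (mul_mem ha (star_mem ha))
  have hD1 : ∀ a : F, (1 : F) ≤ 1 + a * star a := fun a =>
    le_add_of_nonneg_right (mul_star_self_nonneg a)
  have hI : I.inv ∈ Cl b.supp := I.inv_mem (hD1 (b.comb x)) (isClosed_Cl _) (hD hT)
  have hI' : I'.inv ∈ Cl b.supp := I'.inv_mem (hD1 (b.comb x')) (isClosed_Cl _) (hD hT')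
  -- the difference of the sources
  have hVV : V * star V ≤ (star (Real.sqrt (ε ^ 2 * L) • (1 : F)) * Bank.sym u (k + 1) *
      (Real.sqrt (ε ^ 2 * L) • (1 : F))) + (ε ^ 2 * k) • (1 : F) := by
    rw [conj_smul_one _ (by positivity), eV, star_smul, star_trivial ε, smul_mul_smul_comm, ← sq]
    refine (smul_le_smul_of_nonneg_left ((b.comb_mul_star_le hu).trans (Bank.sum_src_le hu hu1 k))
      (sq_nonneg ε)).trans_eq ?_
    rw [smul_add, smul_smul, smul_smul, add_comm]
  have hsym := Bank.sym_props hu (k + 1)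
  have h1 : d.d (cut (δ / 10) (V * star V)) ≤ (1 / 6) ^ (k + 1) := by
    refine (Coin.dim_cut_le (isClosed_Cl _) d (IsSelfAdjoint.mul_star_self V)
      (mul_mem hV (star_mem hV)) ![Bank.sym u (k + 1)] ![Real.sqrt (ε ^ 2 * L) • (1 : F)]
      (fun j => by simpa using hsym.1) (fun j => by simpa using hsym.2)
      (fun j => by simpa using Coin.smul_mem' (one_mem _) _) (r := ε ^ 2 * k)
      (by simpa using hVV) hk).trans ?_
    simpa using Bank.dim_sym hu hu1 hqp hLq d (k + 1)
  have h2 : d.d (cut (δ / 10) (star V * V)) ≤ (1 / 6) ^ (k + 1) := by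
    rwa [d.flip_cut hV (by positivity : 0 < δ / 10)]
  set A := I'.inv
  set B := star (I'.inv * (b.comb x'))
  have hA : star A = A := I'.star_inv
  have hB : ‖B‖ ≤ 1 := by
    rw [norm_star]
    refine (I'.norm_mul_le zero_le_one ?_).trans_eq Real.sqrt_one
    rw [one_smul]; exact le_add_of_nonneg_left zero_le_one
  have hc : ∀ w : F, IsSelfAdjoint w → ∀ a : F, ‖a‖ ≤ 1 →
      star a * w * a ≤ star a * cut (δ / 10) w * a + (δ / 10) • (1 : F) := fun w hw a ha => by
    refine (star_left_conjugate_le_conjugate (Coin.le_cut_add hw (δ / 10)) a).trans ?_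
    rw [mul_add, add_mul, mul_smul_comm, mul_one, smul_mul_assoc]
    refine add_le_add le_rfl (smul_le_smul_of_nonneg_left ?_ (by positivity))
    exact (star_mul_self_le_one ha).trans_eq (by simp)
  refine (Coin.dim_cut_le (isClosed_Cl _) d (IsSelfAdjoint.mul_star_self _) (mul_mem
      (sub_mem (mul_mem hI' hT') (mul_mem hI hT))
      (star_mem (sub_mem (mul_mem hI' hT') (mul_mem hI hT))))
    ![cut (δ / 10) (V * star V), cut (δ / 10) (star V * V)]
    ![Real.sqrt 6 • A, Real.sqrt 3 • B]
    (fun j => by fin_cases j <;> exact Coin.cut_nonneg' _ _)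
    (fun j => by
      fin_cases j <;> refine Coin.cfc_mem' (isClosed_Cl _) ?_ _
      exacts [mul_mem hV (star_mem hV), mul_mem (star_mem hV) hV])
    (fun j => by
      fin_cases j <;> refine Coin.smul_mem' ?_ _
      exacts [hI', star_mem (mul_mem hI' hT')])
    (r := 9 * (δ / 10)) (δ := δ) ?_ (by linarith)).trans ?_
  · refine (diff_props I I').2.trans ?_
    simp only [Fin.sum_univ_two, Matrix.cons_val_zero, Matrix.cons_val_one, Coin.star_smul_conj,
      Real.mul_self_sqrt (by norm_num : (0 : ℝ) ≤ 6), Real.mul_self_sqrt (by norm_num : (0 : ℝ) ≤ 3)]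
    have p1 := hc (V * star V) (IsSelfAdjoint.mul_star_self V) A I'.norm_inv
    have p2 := hc (star V * V) (IsSelfAdjoint.star_mul_self V) B hB
    rw [hA] at p1
    rw [show star B = I'.inv * (b.comb x') from star_star _] at p2
    rw [show star A = A from hA, show star B = I'.inv * (b.comb x') from star_star _]
    refine (add_le_add (smul_le_smul_of_nonneg_left p1 (by norm_num))
      (smul_le_smul_of_nonneg_left p2 (by norm_num))).trans_eq ?_
    rw [smul_add, smul_add, smul_smul, smul_smul,
      show (9 : ℝ) * (δ / 10) = 6 * (δ / 10) + 3 * (δ / 10) by ring, add_smul]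
    abel
  · simp only [Fin.sum_univ_two, Matrix.cons_val_zero, Matrix.cons_val_one]
    linarith

/-- Where the difference is not small, no block has all others in their letter. -/
theorem cut_diff_mul_others {x x' : Fin L → F} (h : ∀ l, b.Src l (x l))
    (h' : ∀ l, b.Src l (x' l)) {ε δ : ℝ} (hd : ∀ l, ‖x' l - x l‖ ≤ ε) (hδ : 9 * ε ^ 2 < δ)
    (I : InvData (1 + b.comb x * star (b.comb x))) (I' : InvData (1 + b.comb x' * star (b.comb x')))
    (l : Fin L) :
    cut δ ((I'.inv * b.comb x' - I.inv * b.comb x) *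
      star (I'.inv * b.comb x' - I.inv * b.comb x)) * b.others l = 0 := by
  set C := b.others l
  set v := x' l - x l
  have hC : star C = C := b.others_star l
  have hcomb : ∀ {u : Fin L → F}, (∀ m, b.Src m (u m)) →
      C * b.comb u = C * u l ∧ Commute C (b.comb u) := fun hu =>
    ⟨(b.others_mul_comb l hu).1,
      (b.others_mul_comb l hu).1.trans (b.others_mul_comb l hu).2.symm⟩
  have hI : Commute C I.inv :=
    I.commute_inv ((Commute.one_right C).add_right (commute_others_comb b h h l))
  have hI' : Commute C I'.inv :=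
    I'.commute_inv ((Commute.one_right C).add_right (commute_others_comb b h' h' l))
  have hv : Commute v C :=
    commute_oth fun j hj => b.comm l j hj.symm _ (sub_mem (h' l).mem (h l).mem) _ (b.C_mem j)
  have hV : C * ((b.comb x') - (b.comb x)) = C * v ∧ C * star ((b.comb x') - (b.comb x)) = C * star v := by
    have e1 : C * ((b.comb x') - (b.comb x)) = C * v := by
      rw [mul_sub, (hcomb h').1, (hcomb h).1, ← mul_sub]
    have hV' : Commute C ((b.comb x') - (b.comb x)) := (hcomb h').2.sub_right (hcomb h).2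
    refine ⟨e1, ?_⟩
    have := congrArg star (hV'.eq.symm.trans e1)
    rw [star_mul, star_mul, hC] at this
    rw [this]
    have := hv.star_star
    rwa [hC] at this
  have push : ∀ {a u u' : F}, Commute C a → C * u = C * u' → C * (a * u) = C * (a * u') :=
    fun {a u u'} ha hu => by
      rw [← mul_assoc, ha.eq, mul_assoc, hu, ← mul_assoc, ← ha.eq, mul_assoc]
  set X := star (b.comb x) * I.inv * (b.comb x)
  set Z := I'.inv * v - I'.inv * v * X - I'.inv * (b.comb x') * star v * (I.inv * (b.comb x))
  have eZ : C * (I'.inv * (b.comb x') - I.inv * (b.comb x)) = C * Z := by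
    have e1 := push hI' hV.1
    have e2 : C * (I'.inv * ((b.comb x') - (b.comb x)) * X) = C * (I'.inv * v * X) := by
      rw [← mul_assoc, e1, mul_assoc]
    have e3 : C * (I'.inv * (b.comb x') * star ((b.comb x') - (b.comb x)) * (I.inv * (b.comb x))) =
        C * (I'.inv * (b.comb x') * star v * (I.inv * (b.comb x))) := by
      rw [← mul_assoc, push (hI'.mul_right (hcomb h').2) hV.2, mul_assoc]
    rw [(diff_props I I').1, mul_sub, mul_sub, e1, e2, e3]
    simp only [Z, mul_sub]
  have hZ : ‖Z‖ ≤ 3 * ε := by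
    have hε : 0 ≤ ε := (norm_nonneg _).trans (hd l)
    have hT : ‖X‖ ≤ 1 := I.norm_star_T (le_add_of_nonneg_left zero_le_one)
    have hle : ∀ {a : F} (J : InvData (1 + a * star a)), ‖J.inv * a‖ ≤ 1 := fun {a} J => by
      refine (J.norm_mul_le zero_le_one ?_).trans_eq Real.sqrt_one
      rw [one_smul]; exact le_add_of_nonneg_left zero_le_one
    have h1 : ‖I'.inv * v‖ ≤ ε :=
      (norm_mul_le _ _).trans ((mul_le_mul I'.norm_inv (hd l) (norm_nonneg _) zero_le_one).trans_eq
        (one_mul ε))
    have h2 : ‖I'.inv * v * X‖ ≤ ε :=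
      (norm_mul_le _ _).trans ((mul_le_mul h1 hT (norm_nonneg _) hε).trans_eq (mul_one ε))
    have h3 : ‖I'.inv * (b.comb x') * star v * (I.inv * (b.comb x))‖ ≤ ε := by
      refine (norm_mul_le _ _).trans ((mul_le_mul ((norm_mul_le _ _).trans (mul_le_mul (hle I')
        ((norm_star v).trans_le (hd l)) (norm_nonneg _) zero_le_one)) (hle I) (norm_nonneg _)
        (by positivity)).trans_eq (by ring))
    exact (norm_sub_le _ _).trans ((add_le_add (norm_sub_le _ _) le_rfl).trans (by linarith))
  set M := (I'.inv * (b.comb x') - I.inv * (b.comb x)) * star (I'.inv * (b.comb x') - I.inv * (b.comb x))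
  have hCM : Commute C M := commute_diff h h' (fun u w hu hw => commute_others_comb b hu hw l) I I'
  have hle : C * M * C ≤ (9 * ε ^ 2) • (C * C) := by
    have e : C * M * C = C * Z * star (C * Z) := by
      rw [← eZ, star_mul, hC]; simp only [M, mul_assoc]
    rw [e, star_mul, hC, show C * Z * (star Z * C) = C * (Z * star Z) * C by simp only [mul_assoc]]
    refine (IsSelfAdjoint.conjugate_le_conjugate (mul_star_self_le_one hZ)
      (show IsSelfAdjoint C from hC)).trans_eq ?_
    rw [mul_smul_comm, mul_one, smul_mul_assoc]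
    ring_nf
  set q := cut δ M
  have hqC : Commute q C := hCM.symm.cfc_real _
  have hq : star q = q := (isSelfAdjoint_cut δ M).star_eq
  have hge : δ • (q * q) ≤ q * M * q := by
    have e1 : q * M * q = cfc (fun t : ℝ => max (t - δ) 0 * t * max (t - δ) 0) M := by
      have := Coin.conj_cfc M (fun t => max (t - δ) 0) (fun t => t) (by fun_prop) (by fun_prop)
      rw [cfc_id' ℝ M (IsSelfAdjoint.mul_star_self _)] at this
      rw [← this, (cfc_predicate (fun t : ℝ => max (t - δ) 0) M : IsSelfAdjoint _).star_eq]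
      rfl
    rw [e1]
    simp only [q, cut]
    rw [← cfc_mul .., ← cfc_smul ..]
    refine cfc_mono fun t _ => ?_
    simp only [smul_eq_mul]
    rcases le_total t δ with ht | ht
    · simp [max_eq_right (by linarith : t - δ ≤ 0)]
    · rw [max_eq_left (by linarith : 0 ≤ t - δ)]
      nlinarith [mul_nonneg (sq_nonneg (t - δ)) (by linarith : (0 : ℝ) ≤ t - δ)]
  have h1 : δ • (star (q * C) * (q * C)) ≤ (9 * ε ^ 2) • (star (q * C) * (q * C)) := by
    have e : ∀ w : F, star (q * C) * w * (q * C) = C * (q * w * q) * C := fun w => by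
      rw [star_mul, hC, hq]; simp only [mul_assoc]
    calc δ • (star (q * C) * (q * C)) = C * (δ • (q * q)) * C := by
          rw [star_mul, hC, hq, mul_smul_comm, smul_mul_assoc]; simp only [mul_assoc]
      _ ≤ C * (q * M * q) * C := IsSelfAdjoint.conjugate_le_conjugate hge hC
      _ = q * (C * M * C) * q := by
          simp only [← mul_assoc]
          rw [← hqC.eq]
          simp only [mul_assoc]
          rw [hqC.eq]
      _ ≤ q * ((9 * ε ^ 2) • (C * C)) * q :=
          IsSelfAdjoint.conjugate_le_conjugate hle (isSelfAdjoint_cut δ M)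
      _ = _ := by
          rw [mul_smul_comm, smul_mul_assoc, star_mul, hC, hq]
          congr 1
          simp only [← mul_assoc]
          rw [← hqC.eq]
          simp only [mul_assoc]
          rw [hqC.eq]
  have h0 : star (q * C) * (q * C) ≤ 0 := by
    have h2 : (δ - 9 * ε ^ 2) • (star (q * C) * (q * C)) ≤ 0 := by
      rw [sub_smul, sub_nonpos]; exact h1
    have := smul_le_smul_of_nonneg_left h2 (inv_nonneg.2 (sub_nonneg.2 hδ.le))
    rwa [smul_smul, inv_mul_cancel₀ (sub_ne_zero.2 hδ.ne'), one_smul, smul_zero] at this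
  exact (CStarRing.star_mul_self_eq_zero_iff _).1 (le_antisymm h0 (star_mul_self_nonneg _))

end bank

/-- A respected bank and a guard give an almost fixed element of square zero, full and large. -/
theorem guarded_of (hG : GuardTarget) : GuardedTarget := by
  intro G _ S e he
  obtain ⟨E, -, hE⟩ := hG G S (e / 3) (by positivity)
  obtain ⟨k, hk⟩ : ∃ k : ℕ, (E.card : ℝ) * S.card * (2 * (1 / 6) ^ (k + 1)) ≤ 1 / 100 := by
    obtain ⟨k, hk⟩ := exists_pow_lt_of_lt_one
      (x := 1 / (100 * (2 * ((E.card : ℝ) * S.card) + 1))) (by positivity)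
      (show (1 / 6 : ℝ) < 1 by norm_num)
    refine ⟨k, ?_⟩
    have h1 : (1 / 6 : ℝ) ^ (k + 1) ≤ 1 / (100 * (2 * ((E.card : ℝ) * S.card) + 1)) :=
      (pow_le_pow_of_le_one (by norm_num) (by norm_num) (Nat.le_succ k)).trans hk.le
    rw [le_div_iff₀ (by positivity)] at h1
    nlinarith [pow_pos (show (0 : ℝ) < 1 / 6 by norm_num) (k + 1)]
  set e' := e / 3 with he'
  have he0 : 0 < e' := by positivity
  set ε := e' / (10 * ((k : ℝ) + 1)) with hεdef
  have hε : 0 < ε := by positivity
  have hεe : ε * (10 * ((k : ℝ) + 1)) = e' := by rw [hεdef]; field_simp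
  refine ⟨ε, hε, fun F _ _ _ β hmul L qm qp b hR hL hqp hqp1 hqm hlow hLq => ?_⟩
  set δ := e' ^ 2 with hδdef
  have hδ : 0 < δ := by positivity
  have hk10 : ε ^ 2 * k < δ / 10 := by
    rw [hδdef, ← hεe]; nlinarith [sq_pos_of_pos hε, Nat.cast_nonneg (α := ℝ) k]
  have h9 : 9 * ε ^ 2 < δ := by
    rw [hδdef, ← hεe, mul_pow, mul_comm]
    refine mul_lt_mul_of_pos_left ?_ (sq_pos_of_pos hε)
    nlinarith [Nat.cast_nonneg (α := ℝ) k]
  set T := b.T with hTdef
  have hD : b.D (1 / 16) 0 = 1 + T * star T := by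
    simp [hTdef, Bank.D, Bank.S, Bank.X, Bank.inc]
  obtain ⟨J⟩ := exists_invData (b.one_le_D 0 (by norm_num : (1 / 16 : ℝ) ≤ 1))
  let I : InvData (1 + T * star T) :=
    ⟨J.inv, by rw [← hD]; exact J.left, by rw [← hD]; exact J.right, J.star_inv, J.norm_inv⟩
  set T₁ := I.inv * T with hT₁
  have hyβ : ∀ g l, b.Src l (β g (b.y l)) := fun g l => src_map hR g (b.src_y l)
  have hT' : ∀ g, β g T = b.comb fun l => β g (b.y l) := fun g => map_comb hR g b.y
  have eD : ∀ g, β g (1 + T * star T) =
      1 + b.comb (fun l => β g (b.y l)) * star (b.comb fun l => β g (b.y l)) := fun g => by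
    rw [map_add, map_one, map_mul, map_star, hT']
  let I' : ∀ g, InvData (1 + b.comb (fun l => β g (b.y l)) * star (b.comb fun l => β g (b.y l))) :=
    fun g => ⟨β g I.inv,
      by rw [← eD, ← map_mul, I.left, map_one],
      by rw [← eD, ← map_mul, I.right, map_one],
      by rw [← map_star, I.star_inv], by rw [Amen.Square.norm_map']; exact I.norm_inv⟩
  have hgT : ∀ g, β g T₁ = (I' g).inv * b.comb fun l => β g (b.y l) := fun g => by
    rw [hT₁, map_mul, hT']
  set M : G → F := fun g => (β g T₁ - T₁) * star (β g T₁ - T₁) with hMdef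
  set bad := ∑ g ∈ S, cut δ (M g) with hbad
  have hbad0 : 0 ≤ bad := sum_nonneg fun g _ => Coin.cut_nonneg' _ _
  obtain ⟨W, hW0, hW1, hWm, hWfix, hWle, hWr⟩ :=
    hE F β hmul bad δ (Coin.sqLe_iff.2 hbad0) hδ
  rw [Coin.sqLe_iff] at hW0 hW1 hWle
  -- membership
  have hTm : T ∈ Cl b.supp := b.comb_mem b.y_mem
  have hIm : I.inv ∈ Cl b.supp := I.inv_mem (le_add_of_nonneg_right (mul_star_self_nonneg T))
    (isClosed_Cl _) (add_mem (one_mem _) (mul_mem hTm (star_mem hTm)))
  have hT₁m : T₁ ∈ Cl b.supp := mul_mem hIm hTm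
  have hMm : ∀ g, M g ∈ Cl b.supp := fun g =>
    mul_mem (sub_mem (supp_map hR g hT₁m) hT₁m) (star_mem (sub_mem (supp_map hR g hT₁m) hT₁m))
  have hcm : ∀ g, cut δ (M g) ∈ Cl b.supp := fun g => Coin.cfc_mem' (isClosed_Cl _) (hMm g) _
  have hbadm : bad ∈ Cl b.supp := sum_mem fun g _ => hcm g
  have hWm' : W ∈ Cl b.supp := Cl_le (isClosed_Cl _) (fun a ha => by
    obtain ⟨h, -, rfl⟩ := ha
    exact supp_map hR h hbadm) hWm
  -- `G` commutes with the guard, the letters kill it
  have hGW : ∀ j, Commute (b.G j) W := fun j => by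
    refine commute_of_mem (b.G_star j) (fun a ha => ?_) hWm
    obtain ⟨h, -, rfl⟩ := ha
    rw [← map_G hR h j]
    refine Commute.map ?_ (β h)
    refine Commute.sum_right _ _ _ fun g _ => (Commute.cfc_real ?_ _).symm
    rw [hMdef]
    simp only [hgT]
    exact (commute_diff b.src_y (hyβ g) (fun u v hu hv => commute_G_comb b hu hv j) I (I' g)).symm
  have hCbad : ∀ g ∈ S, ∀ l, cut δ (M g) * b.others l = 0 := fun g hg l => by
    rw [hMdef]
    simp only [hgT]
    exact cut_diff_mul_others b.src_y (hyβ g) (hR.almost g hg) h9 I (I' g) l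
  have hWC : ∀ l, W * b.others l = 0 := fun l => by
    refine Coin.mul_eq_zero_of_conj hW0 ?_
    refine (star_left_conjugate_le_conjugate hWle _).trans_eq ?_
    have : ∀ h ∈ E, β h bad * b.others l = 0 := fun h _ => by
      rw [← map_others hR h l, ← map_mul, hbad, sum_mul, sum_eq_zero fun g hg => hCbad g hg l,
        map_zero]
    rw [mul_smul_comm, smul_mul_assoc, mul_assoc, sum_mul, sum_eq_zero this, mul_zero, smul_zero]
  have hWsa : star W = W := (IsSelfAdjoint.of_nonneg hW0).star_eq
  set h₀ := 1 - W with hh₀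
  have hh0 : 0 ≤ h₀ := sub_nonneg.2 hW1
  have hh1 : h₀ ≤ 1 := sub_le_self _ hW0
  have hhs : star h₀ = h₀ := (IsSelfAdjoint.of_nonneg hh0).star_eq
  set z := h₀ * T₁ with hz
  have hT₁1 : ‖T₁‖ ≤ 1 := by
    refine (I.norm_mul_le zero_le_one ?_).trans_eq Real.sqrt_one
    rw [one_smul]; exact le_add_of_nonneg_left zero_le_one
  have hhn : ‖h₀‖ ≤ 1 := norm_le_one_of_sq_le hhs (mul_self_le hh0 hh1)
  have hz1 : ‖z‖ ≤ 1 :=
    (norm_mul_le _ _).trans ((mul_le_mul hhn hT₁1 (norm_nonneg _) zero_le_one).trans_eq (one_mul 1))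
  have hzz : z * z = 0 := by
    have hGX : ∀ j, Commute (b.G j) (h₀ * I.inv) := fun j =>
      ((Commute.one_right _).sub_right (hGW j)).mul_right
        (I.commute_inv ((Commute.one_right _).add_right (commute_G_comb b b.src_y b.src_y j)))
    suffices T * (h₀ * I.inv * T) = 0 by
      rw [hz, hT₁, ← mul_assoc h₀ I.inv T, mul_assoc, this, mul_zero]
    have key : ∀ l m, b.y l * (h₀ * I.inv) * (b.c m * b.y m) = 0 := by
      intro l m
      rcases eq_or_ne l m with rfl | hlm
      · have hc : Commute (b.G l) (b.c l) := commute_oth fun i _ => b.G_commute l i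
        calc b.y l * (h₀ * I.inv) * (b.c l * b.y l)
            = b.y l * (h₀ * I.inv) * (b.c l * (b.G l * b.y l)) := by rw [(b.src_y l).G_mul]
          _ = b.y l * (h₀ * I.inv * b.G l) * (b.c l * b.y l) := by
              rw [← mul_assoc (b.c l), ← hc.eq]; simp only [mul_assoc]
          _ = 0 := by
              rw [← (hGX l).eq, ← mul_assoc (b.y l), (b.src_y l).mul_G, zero_mul, zero_mul]
      · rw [← mul_assoc (b.y l * _), Bank.c, mul_oth_eq_zero b.G_commute hlm (by
          rw [mul_assoc, ← (hGX l).eq, ← mul_assoc, (b.src_y l).mul_G, zero_mul]), zero_mul]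
    simp only [hTdef, Bank.T, Bank.comb, mul_sum, sum_mul]
    refine sum_eq_zero fun m _ => sum_eq_zero fun l _ => ?_
    rw [mul_assoc (b.c l), ← mul_assoc (b.y l), key, mul_zero]
  have hfix : ∀ g ∈ S, ‖β g z - z‖ ≤ e := fun g hg => by
    have e1 : β g z - z = (β g h₀ - h₀) * β g T₁ + h₀ * (β g T₁ - T₁) := by
      rw [hz, map_mul]; noncomm_ring
    have h1 : ‖β g h₀ - h₀‖ ≤ e' := by
      rw [show β g h₀ - h₀ = -(β g W - W) by rw [hh₀, map_sub, map_one]; abel, norm_neg]
      exact hWfix g hg
    have hbad' : ‖h₀ * bad * h₀‖ ≤ δ := by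
      set r := CFC.sqrt bad
      have hr : star r = r := (CFC.sqrt_nonneg bad).isSelfAdjoint.star_eq
      have hrr : star r * r = bad := by rw [hr]; exact CFC.sqrt_mul_sqrt_self bad hbad0
      rw [show h₀ * bad * h₀ = star (r * h₀) * (r * h₀) by
          rw [star_mul, hhs, ← hrr]; simp only [mul_assoc],
        CStarRing.norm_star_mul_self, ← CStarRing.norm_self_mul_star, star_mul, hhs,
        show r * h₀ * (h₀ * star r) = r * (h₀ * h₀) * star r by simp only [mul_assoc]]
      exact (CStarAlgebra.norm_le_norm_of_nonneg_of_le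
        (star_right_conjugate_nonneg ((IsSelfAdjoint.of_nonneg hh0).mul_self_nonneg) r)
        (star_right_conjugate_le_conjugate (mul_self_le hh0 hh1) r)).trans (hWr r hrr)
    have hM : M g ≤ bad + δ • (1 : F) :=
      (Coin.le_cut_add (IsSelfAdjoint.mul_star_self _) δ).trans
        (add_le_add (single_le_sum (f := fun g => cut δ (M g))
          (fun g _ => Coin.cut_nonneg' _ _) hg) le_rfl)
    have h2 : ‖h₀ * (β g T₁ - T₁)‖ ≤ 2 * e' := by
      have hM' := IsSelfAdjoint.conjugate_le_conjugate hM hhs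
      rw [mul_add, add_mul, mul_smul_comm, mul_one, smul_mul_assoc] at hM'
      have h3 : ‖h₀ * M g * h₀‖ ≤ 2 * δ := by
        refine (CStarAlgebra.norm_le_norm_of_nonneg_of_le
          (IsSelfAdjoint.conjugate_nonneg (mul_star_self_nonneg _) hhs) hM').trans
          ((norm_add_le _ _).trans ?_)
        rw [norm_smul, Real.norm_of_nonneg hδ.le, two_mul]
        exact add_le_add hbad' (mul_le_of_le_one_right hδ.le ((norm_mul_le _ _).trans
          (mul_le_one₀ hhn (norm_nonneg _) hhn)))
      rw [show h₀ * M g * h₀ = h₀ * (β g T₁ - T₁) * star (h₀ * (β g T₁ - T₁)) by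
        simp only [hMdef, star_mul, hhs, mul_assoc], CStarRing.norm_self_mul_star, hδdef] at h3
      nlinarith [norm_nonneg (h₀ * (β g T₁ - T₁))]
    rw [e1]
    refine (norm_add_le _ _).trans ((add_le_add ((norm_mul_le _ _).trans (mul_le_mul h1
      ((Amen.Square.norm_map' (β g) T₁).le.trans hT₁1) (norm_nonneg _) he0.le)) h2).trans ?_)
    rw [he']; linarith
  have hfull : FullPos (cut (1 / 100000) (star z * z)) := by
    have l : Fin L := ⟨0, hL⟩
    obtain ⟨hD0, hcD, hsa, hn⟩ := b.D0_props 0 (η := 1 / 16) (by norm_num) le_rfl rfl l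
    have hCh : Commute (b.others l) h₀ := by
      refine (Commute.one_right _).sub_right ?_
      have := congrArg star (hWC l)
      rw [star_mul, hWsa, b.others_star, star_zero] at this
      exact this.trans (hWC l).symm
    have hCz : b.others l * z = b.others l * T₁ := by
      have : b.others l * W = 0 := by
        have := congrArg star (hWC l)
        rwa [star_mul, hWsa, b.others_star, star_zero] at this
      rw [hz, hh₀, ← mul_assoc, mul_sub, mul_one, this, sub_zero]
    have hCT : Commute (b.others l) T := by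
      show b.others l * b.T = b.T * b.others l
      rw [Bank.T, (b.others_mul_comb l b.src_y).1, (b.others_mul_comb l b.src_y).2]
    refine b.fullPos_of_others l (by norm_num) (hCh.mul_right ((I.commute_inv
      (hD ▸ hcD)).mul_right hCT)) hsa hn ?_
    rw [hCz, ← mul_assoc (b.D0 0 _ l), ← hD0, hD, mul_assoc, hT₁, ← mul_assoc (1 + T * star T),
      I.right, one_mul, hTdef, Bank.T, (b.others_mul_comb l b.src_y).1]
  refine ⟨z, hz1, hzz, hfix, hfull, b.supp, b.countable_supp,
    posIn (Coin.cfc_mem' (isClosed_Cl _) (mul_mem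
      (star_mem (mul_mem (sub_mem (one_mem _) hWm') hT₁m)) (mul_mem (sub_mem (one_mem _) hWm') hT₁m))
      _) (Coin.cut_nonneg' _ _), fun d => ?_⟩
  have hzm : z ∈ Cl b.supp := mul_mem (sub_mem (one_mem _) hWm') hT₁m
  -- the guard is tiny
  have hdW : d.d W ≤ 1 / 100 := by
    set idx := E ×ˢ S
    let en := idx.equivFin
    set v : Fin idx.card → F := fun j => β ((en.symm j).1.1) (cut δ (M (en.symm j).1.2)) with hv
    have hWle' : W ≤ ∑ j, star (Real.sqrt (1 / δ) • (1 : F)) * v j * (Real.sqrt (1 / δ) • (1 : F)) := by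
      refine hWle.trans_eq ?_
      simp only [conj_smul_one _ (by positivity : (0 : ℝ) ≤ 1 / δ), ← smul_sum, hv, hbad, map_sum]
      rw [en.symm.sum_comp fun i => β i.1.1 (cut δ (M i.1.2)),
        Finset.sum_coe_sort idx fun i => β i.1 (cut δ (M i.2)), sum_product]
    refine (dim_le_of_le d hW0 hWm' v (fun _ => Real.sqrt (1 / δ) • (1 : F))
      (fun j => map_nonneg _ (Coin.cut_nonneg' _ _)) (fun j => supp_map hR _ (hcm _))
      (fun _ => Coin.smul_mem' (one_mem _) _) hWle').trans ?_
    refine (sum_le_sum fun j _ => (?_ : d.d (v j) ≤ 2 * (1 / 6) ^ (k + 1))).trans ?_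
    · show (pushDim d (β (en.symm j).1.1) fun x hx => supp_map hR _ hx).d
        (cut δ (M (en.symm j).1.2)) ≤ _
      rw [hMdef]
      simp only [hgT]
      exact dim_cut_diff b.src_y (hyβ _) hε
        (hR.almost _ (mem_product.1 (en.symm j).2).2) hδ k hk10 hqp hLq I (I' _) _
    · rw [sum_const, card_univ, Fintype.card_fin, nsmul_eq_mul, card_product, Nat.cast_mul]
      exact hk
  -- what is left of the large element
  set d₀ : ℝ := 1 / 100000 with hd₀
  have hle : star T₁ * T₁ ≤ (star (Real.sqrt 2 • (1 : F)) * cut d₀ (star z * z) *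
      (Real.sqrt 2 • (1 : F)) + star (Real.sqrt 2 • T₁) * W * (Real.sqrt 2 • T₁)) +
        (2 * d₀) • (1 : F) := by
    have h1 : star T₁ * T₁ ≤ (2 : ℝ) • (star z * z + star T₁ * (W * W) * T₁) := by
      have key : ∀ p q : F, star (p + q) * (p + q) ≤ (2 : ℝ) • (star p * p + star q * q) :=
        fun p q => by
          rw [← sub_nonneg]
          refine le_of_le_of_eq (star_mul_self_nonneg (p - q)) ?_
          rw [two_smul]
          simp only [star_add, star_sub]
          noncomm_ring
      have h := key z (W * T₁)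
      rw [show z + W * T₁ = T₁ by rw [hz, hh₀]; noncomm_ring,
        show star (W * T₁) = star T₁ * W by rw [star_mul, hWsa]] at h
      simpa only [mul_assoc] using h
    have h2 : star z * z + star T₁ * (W * W) * T₁ ≤
        cut d₀ (star z * z) + d₀ • (1 : F) + star T₁ * W * T₁ :=
      add_le_add (Coin.le_cut_add (IsSelfAdjoint.star_mul_self z) d₀)
        (star_left_conjugate_le_conjugate (mul_self_le hW0 hW1) T₁)
    refine (h1.trans (smul_le_smul_of_nonneg_left h2 (by norm_num))).trans_eq ?_
    rw [conj_smul_one _ (by norm_num : (0 : ℝ) ≤ 2), Coin.star_smul_conj,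
      Real.mul_self_sqrt (by norm_num : (0 : ℝ) ≤ 2), smul_add, smul_add, smul_smul]
    abel
  have hlo : 1 / 20 ≤ d.d (cut (1 / 36864) (star T₁ * T₁)) :=
    b.dim_star_mul_self 0 (η := 1 / 16) (by norm_num) le_rfl rfl hqp hqp1 hqm hlow hLq J d
  have hup := Coin.dim_cut_le (isClosed_Cl _) d (IsSelfAdjoint.star_mul_self T₁)
    (mul_mem (star_mem hT₁m) hT₁m) ![cut d₀ (star z * z), W]
    ![Real.sqrt 2 • (1 : F), Real.sqrt 2 • T₁]
    (fun j => by
      fin_cases j
      exacts [Coin.cut_nonneg' _ _, hW0])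
    (fun j => by
      fin_cases j
      exacts [Coin.cfc_mem' (isClosed_Cl _) (mul_mem (star_mem hzm) hzm) _, hWm'])
    (fun j => by
      fin_cases j
      exacts [Coin.smul_mem' (one_mem _) _, Coin.smul_mem' hT₁m _])
    (r := 2 * d₀) (δ := 1 / 36864) (hle.trans_eq (by simp [Fin.sum_univ_two]))
    (by rw [hd₀]; norm_num)
  simp only [Fin.sum_univ_two, Matrix.cons_val_zero, Matrix.cons_val_one] at hup
  linarith

end

end Vale.Agent.P095.All.Square
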