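import Vale.Agent.P095.All.Square.Blocks
import Vale.Agent.P095.All.Square.Guarded
import Vale.Agent.P095.Amen.Square.Main

/-!
# P095 Square: an exactly fixed full element of square zero, for an action
-/

namespace Vale.Agent.P095.All.Square

open Vale.Agent.P101.KR Finset
open Vale.Agent.P095.Amen hiding Setting LettersTarget SquareTarget CoinTarget
open Vale.Agent.P095.Amen.Square (squareRels eval_squareRels)
open scoped CStarAlgebra

noncomputable section

/-- An exactly fixed full element of square zero, from the modules and the guarded element. -/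
theorem square_of_guarded (hC : CompareTarget) (hW : WitnessTarget) (hL : All.LettersTarget)
    (hR : RowLTarget) (hZ : GuardedTarget) : All.SquareTarget := by
  intro G _ _ F _ β S₀ hS
  let _ := CStarAlgebra.spectralOrder F
  let _ := CStarAlgebra.spectralOrderedRing F
  obtain ⟨K, hK⟩ := hW (1 / 25) (by norm_num)
  have happ : ∀ ε : ℝ, 0 < ε → ∃ x : Fin (K + 1) → F,
      (∀ i, ‖x i‖ ≤ max 1 (2 / Real.sqrt (1 / 100000))) ∧
        (∀ r ∈ squareRels K, ‖r.eval x‖ ≤ ε) ∧
          ∀ i ∈ ({0} : Finset (Fin (K + 1))), ∀ g ∈ S₀, ‖β g (x i) - x i‖ ≤ ε := by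
    intro ε hε
    obtain ⟨ε', hε', hz⟩ := hZ G S₀ ε hε
    obtain ⟨L, qm, qp, b, hb, hL0, hqp, hqp1, hqm, hlow, hLq⟩ := exists_bank hC hL hR hS hε'
    obtain ⟨z, hz1, hz2, hz3, hfull, hge⟩ :=
      hz F β hS.mul L qm qp b hb hL0 hqp hqp1 hqm hlow hLq
    obtain ⟨y, hy1, hy2⟩ := hK F (Setting.hasCopies hS) hS.central hS.noChar (star z * z)
      (1 / 100000) (Coin.sqLe_iff.2 (star_mul_self_nonneg z)) (by norm_num) hfull hge
    refine ⟨Fin.cons z y, fun i => ?_, fun r hr => ?_, fun i hi g hg => ?_⟩
    · refine Fin.cases ?_ (fun j => ?_) i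
      · rw [Fin.cons_zero]; exact hz1.trans (le_max_left _ _)
      · rw [Fin.cons_succ]; exact (hy1 j).trans (le_max_right _ _)
    · have h := List.mem_map_of_mem (f := fun r => r.eval (Fin.cons z y : Fin (K + 1) → F)) hr
      rw [eval_squareRels] at h
      simp only [Fin.cons_zero, Fin.cons_succ, hz2, hy2, sub_self, List.mem_cons, List.not_mem_nil,
        or_false, or_self] at h
      rw [h, norm_zero]; exact hε.le
    · rw [Finset.mem_singleton.1 hi, Fin.cons_zero]
      exact hz3 g hg
  obtain ⟨x, hx, hfix⟩ := hS.saturated (K + 1) {0} (squareRels K) _ happ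
  have h : ∀ v ∈ (squareRels K).map (fun r => r.eval x), v = 0 := fun v hv => by
    obtain ⟨r, hr, rfl⟩ := List.mem_map.1 hv
    exact hx r hr
  rw [eval_squareRels] at h
  exact ⟨x 0, hfix 0 (Finset.mem_singleton_self 0), h _ (by simp), K, fun i => x i.succ,
    sub_eq_zero.1 (h _ (by simp))⟩

/-- An exactly fixed full element of square zero, from the modules. -/
theorem square_of (hC : CompareTarget) (hW : WitnessTarget) (hL : All.LettersTarget)
    (hR : RowLTarget) (hG : GuardTarget) : All.SquareTarget :=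
  square_of_guarded hC hW hL hR (guarded_of hG)

end

end Vale.Agent.P095.All.Square
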