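import Vale.Agent.P095.Amen.Square.Prod
import Vale.Agent.P095.Amen.Cuntz.Order

/-!
# P095 Square: the row element reshaped, and what its defect gives
-/

namespace Vale.Agent.P095.All.Square

open Vale.Agent.P101.KR Finset
open Vale.Agent.P095.Amen
open Vale.Agent.P095.Amen.Square (InvData exists_invData cfc_mul_eq_smul isSelfAdjoint_cut
  norm_le_one_of_sq_le)
open scoped CStarAlgebra

noncomputable section

variable {F : Type} [CStarAlgebra F] [PartialOrder F] [StarOrderedRing F]

/-- What is a unit for `u` sees the cut of its square. -/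
theorem conj_cut_sq {R R' : F} (hR : IsSelfAdjoint R) (hR' : IsSelfAdjoint R') (h : R * R' = R') :
    star (Real.sqrt 2 • R') * cut (1 / 2) (R * R) * (Real.sqrt 2 • R') = R' * R' := by
  have h1 : cut (1 / 2) (R * R) * R' = (1 / 2 : ℝ) • R' := by
    rw [cut, cfc_mul_eq_smul hR.mul_self_nonneg.isSelfAdjoint (r := 1)
      (by rw [mul_assoc, h, h, one_smul]) (by fun_prop)]
    norm_num
  rw [Coin.star_smul_conj, hR'.star_eq, mul_assoc, h1, mul_smul_comm, smul_smul,
    Real.mul_self_sqrt zero_le_two]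
  norm_num

/-- A defect with unital witnesses, seen through the flip, gives fullness. -/
theorem fullPos_of_defect {z c R R' : F} (hc : 0 ≤ c)
    (hR' : IsSelfAdjoint R') (hRR : R * R' = R') (hfull : FullPos (R' * R')) {K : ℕ}
    (v : Fin K → F) (hv : ∑ i, star (v i) * v i = 1)
    (hlow : (1 / 2 : ℝ) • (R * R) ≤ ∑ i, star (v i) * (star z * z) * v i)
    (hflip : z * star z ≤ (2 : ℝ) • c + (11 / 50 : ℝ) • (1 : F)) : FullPos c := by
  set X := star z * z
  have hX : X ≤ (1 / 4 : ℝ) • (1 : F) + (8 : ℝ) • (star z * c * z) := by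
    have h1 := star_left_conjugate_le_conjugate hflip z
    rw [mul_add, add_mul, mul_smul_comm, mul_smul_comm, smul_mul_assoc, smul_mul_assoc, mul_one,
      show star z * (z * star z) * z = X * X by simp only [X, mul_assoc]] at h1
    have h2 : 0 ≤ ((2 : ℝ) • X - (47 / 100 : ℝ) • (1 : F)) * ((2 : ℝ) • X - (47 / 100 : ℝ) • (1 : F)) :=
      (((IsSelfAdjoint.all (2 : ℝ)).smul (IsSelfAdjoint.star_mul_self z)).sub
        ((IsSelfAdjoint.all (47 / 100 : ℝ)).smul (IsSelfAdjoint.one F))).mul_self_nonneg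
    have h3 := add_nonneg h2 (smul_nonneg (show (0 : ℝ) ≤ 291 / 10000 by norm_num)
      (zero_le_one (α := F)))
    have h4 := smul_le_smul_of_nonneg_left h1 (show (0 : ℝ) ≤ 4 by norm_num)
    rw [← sub_nonneg] at h4 ⊢
    refine (add_nonneg h3 h4).trans_eq ?_
    simp only [sub_mul, mul_sub, smul_mul_assoc, mul_smul_comm, mul_one, one_mul]
    module
  obtain ⟨L, y, hy⟩ := hfull
  have hpt : ∀ i, star (v i) * X * v i ≤
      (1 / 4 : ℝ) • (star (v i) * v i) + (8 : ℝ) • (star (z * v i) * c * (z * v i)) := fun i => by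
    refine (star_left_conjugate_le_conjugate hX (v i)).trans_eq ?_
    simp only [mul_add, add_mul, mul_smul_comm, smul_mul_assoc, mul_one, star_mul, mul_assoc]
  have h5 := hlow.trans (sum_le_sum fun i _ => hpt i)
  rw [sum_add_distrib, ← smul_sum, ← smul_sum, hv] at h5
  have e : R' * (R * R) * R' = R' * R' := by rw [mul_assoc, mul_assoc, hRR, hRR]
  have h6 := IsSelfAdjoint.conjugate_le_conjugate h5 hR'
  rw [mul_smul_comm, smul_mul_assoc, e, mul_add, add_mul, mul_smul_comm, smul_mul_assoc, mul_one,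
    mul_smul_comm, smul_mul_assoc] at h6
  have h7 : (1 / 4 : ℝ) • (R' * R') ≤ (8 : ℝ) • (R' * (∑ i, star (z * v i) * c * (z * v i)) * R') := by
    rw [← sub_nonneg] at h6 ⊢
    refine h6.trans_eq ?_
    module
  have h8 : R' * R' ≤ ∑ i, star (Real.sqrt 32 • (z * v i * R')) * c * (Real.sqrt 32 • (z * v i * R')) := by
    have := smul_le_smul_of_nonneg_left h7 (show (0 : ℝ) ≤ 4 by norm_num)
    rw [smul_smul, smul_smul] at this
    norm_num at this
    refine this.trans_eq ?_
    rw [mul_sum, sum_mul, smul_sum]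
    refine sum_congr rfl fun i _ => ?_
    rw [Coin.star_smul_conj, Real.mul_self_sqrt (show (0 : ℝ) ≤ 32 by norm_num)]
    simp only [star_mul, hR'.star_eq, mul_assoc]
  refine Coin.fullPos_of_one_le hc.isSelfAdjoint
    (fun p : Fin (L * K) => Real.sqrt 32 • (z * v (finProdFinEquiv.symm p).2 * R') *
      y (finProdFinEquiv.symm p).1) (r := 0) one_pos ?_
  rw [zero_smul, add_zero, finProdFinEquiv.symm.sum_comp (fun p : Fin L × Fin K =>
    star (Real.sqrt 32 • (z * v p.2 * R') * y p.1) * c * (Real.sqrt 32 • (z * v p.2 * R') * y p.1)),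
    Fintype.sum_prod_type, ← hy]
  refine sum_le_sum fun j _ => (star_left_conjugate_le_conjugate h8 (y j)).trans_eq ?_
  simp only [mul_sum, sum_mul, star_mul, mul_assoc]

/-- The row element reshaped into a contraction whose square is bounded below on the cut. -/
theorem exists_reshape {B : StarSubalgebra ℂ F} (hB : IsClosed (B : Set F)) {y P C : F}
    (hyB : y ∈ B) (hP : IsSelfAdjoint P) (hy : ‖y‖ ≤ 1) (h0 : y * y = 0) (hyP : y * P = y)
    (hPy : P * y = 0) (hCy : C * y = 0) :
    ∃ y' : F, y' ∈ B ∧ ‖y'‖ ≤ 1 ∧ y' * y' = 0 ∧ y' * P = y' ∧ P * y' = 0 ∧ C * y' = 0 ∧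
      cut (1 / 10) (star y * y) ≤ (8 : ℝ) • cut (1 / 2) (star y' * y') ∧
      ∀ (σ : F ≃⋆ₐ[ℂ] F) (ε : ℝ), ‖σ y - y‖ ≤ ε → ‖σ y' - y'‖ ≤ 36 * ε := by
  set X := star y * y
  have hX0 : 0 ≤ X := star_mul_self_nonneg y
  have hXsa := hX0.isSelfAdjoint
  have hD : (1 : F) ≤ 1 + (4 : ℝ) • X := le_add_of_nonneg_right (smul_nonneg (by norm_num) hX0)
  obtain ⟨I⟩ := exists_invData hD
  have hg : Continuous fun t : ℝ => (1 + 4 * max t 0)⁻¹ :=
    (by fun_prop : Continuous fun t : ℝ => 1 + 4 * max t 0).inv₀ fun t => by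
      have := le_max_right t (0 : ℝ); positivity
  have hspec : ∀ t ∈ spectrum ℝ X, 0 ≤ t ∧ t ≤ 1 := fun t ht =>
    ⟨spectrum_nonneg_of_nonneg hX0 ht, (le_algebraMap_iff_spectrum_le hXsa).1
      ((Amen.Square.star_mul_self_le_one hy).trans_eq (by simp)) t ht⟩
  have hI : I.inv = cfc (fun t : ℝ => (1 + 4 * max t 0)⁻¹) X := by
    have e : (1 + (4 : ℝ) • X) * cfc (fun t : ℝ => (1 + 4 * max t 0)⁻¹) X = 1 := by
      have e1 : (1 : F) + (4 : ℝ) • X = cfc (fun t : ℝ => 1 + 4 * t) X := by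
        rw [cfc_add .., cfc_const_one ℝ X, cfc_const_mul .., cfc_id' ℝ X]
      rw [e1, ← cfc_mul (fun t : ℝ => 1 + 4 * t) _ X (by fun_prop) hg.continuousOn,
        ← cfc_const_one ℝ X]
      refine cfc_congr fun t ht => ?_
      rw [max_eq_left (hspec t ht).1]
      exact mul_inv_cancel₀ (by linarith [(hspec t ht).1])
    calc I.inv = I.inv * ((1 + (4 : ℝ) • X) * cfc (fun t : ℝ => (1 + 4 * max t 0)⁻¹) X) := by
          rw [e, mul_one]
      _ = _ := by rw [← mul_assoc, I.left, one_mul]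
  have hXy : X * y = 0 := by rw [mul_assoc, h0, mul_zero]
  have hIy : I.inv * y = y := by
    have : (1 + (4 : ℝ) • X) * y = y := by
      rw [add_mul, one_mul, smul_mul_assoc, hXy, smul_zero, add_zero]
    conv_lhs => rw [← this, ← mul_assoc, I.left, one_mul]
  have hXP : Commute X P := by
    have hPy' : P * star y = star y := by
      conv_rhs => rw [← hyP]
      rw [star_mul, hP.star_eq]
    show X * P = P * X
    rw [mul_assoc, hyP, ← mul_assoc, hPy']
  have hIP : Commute P I.inv := I.commute_inv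
    (((Commute.one_left P).add_left (hXP.smul_left _)).symm)
  refine ⟨(4 : ℝ) • (y * I.inv), Coin.smul_mem' (mul_mem hyB (hI ▸ Coin.cfc_mem' hB
    (mul_mem (star_mem hyB) hyB) _)) 4, ?_, ?_, ?_, ?_, ?_, ?_, fun σ ε hε => ?_⟩
  rotate_left 6
  · have hσn : ∀ x : F, ‖σ x‖ = ‖x‖ := fun x =>
      NonUnitalStarAlgHom.norm_map σ.toStarAlgHom σ.injective x
    have hdX : ‖σ X - X‖ ≤ 2 * ε := by
      rw [map_mul, map_star, show star (σ y) * σ y - star y * y =
        star (σ y - y) * σ y + star y * (σ y - y) by rw [star_sub]; noncomm_ring]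
      refine (norm_add_le _ _).trans ?_
      have a1 := (norm_mul_le (star (σ y - y)) (σ y)).trans (mul_le_mul
        ((norm_star _).trans_le hε) ((hσn y).trans_le hy) (norm_nonneg _)
        ((norm_nonneg _).trans hε))
      have a2 := (norm_mul_le (star y) (σ y - y)).trans (mul_le_mul
        ((norm_star _).trans_le hy) hε (norm_nonneg _) zero_le_one)
      linarith
    have hdI : ‖σ I.inv - I.inv‖ ≤ 8 * ε := by
      have e : σ I.inv - I.inv = σ I.inv * ((4 : ℝ) • (X - σ X)) * I.inv := by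
        have h1 : σ I.inv * (1 + (4 : ℝ) • σ X) = 1 := by
          have := congrArg σ I.left
          rwa [map_mul, map_add, map_one, Amen.Square.map_real_smul] at this
        calc σ I.inv - I.inv = σ I.inv * ((1 + (4 : ℝ) • X) * I.inv) -
              σ I.inv * (1 + (4 : ℝ) • σ X) * I.inv := by rw [I.right, mul_one, h1, one_mul]
          _ = _ := by rw [smul_sub]; noncomm_ring
      rw [e]
      refine (norm_mul₃_le ..).trans ?_
      rw [hσn, norm_smul, norm_sub_rev, Real.norm_of_nonneg (by norm_num : (0 : ℝ) ≤ 4)]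
      have h2 := mul_le_of_le_one_left (by positivity : 0 ≤ 4 * ‖σ X - X‖) I.norm_inv
      have h3 := mul_le_of_le_one_right (by positivity : 0 ≤ ‖I.inv‖ * (4 * ‖σ X - X‖)) I.norm_inv
      linarith
    rw [Amen.Square.map_real_smul, ← smul_sub, norm_smul,
      Real.norm_of_nonneg (by norm_num : (0 : ℝ) ≤ 4), map_mul,
      show σ y * σ I.inv - y * I.inv = (σ y - y) * σ I.inv + y * (σ I.inv - I.inv) by noncomm_ring]
    have a1 := (norm_mul_le (σ y - y) (σ I.inv)).trans
      (mul_le_of_le_one_right (norm_nonneg _) ((hσn _).trans_le I.norm_inv))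
    have a2 := (norm_mul_le y (σ I.inv - I.inv)).trans (mul_le_of_le_one_left (norm_nonneg _) hy)
    linarith [norm_add_le ((σ y - y) * σ I.inv) (y * (σ I.inv - I.inv))]
  all_goals
    have hf : star ((4 : ℝ) • (y * I.inv)) * ((4 : ℝ) • (y * I.inv)) =
        cfc (fun t : ℝ => 16 * ((1 + 4 * max t 0)⁻¹ * t * (1 + 4 * max t 0)⁻¹)) X := by
      rw [star_smul, star_trivial, smul_mul_smul_comm, star_mul, I.star_inv,
        show I.inv * star y * (y * I.inv) = I.inv * X * I.inv by simp only [X, mul_assoc], hI,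
        Cuntz.cfc_mul_self_mul hXsa hg hg,
        cfc_const_mul (16 : ℝ) (fun t : ℝ => (1 + 4 * max t 0)⁻¹ * t * (1 + 4 * max t 0)⁻¹) X
          ((hg.mul continuous_id).mul hg).continuousOn]
      norm_num
  · have h1 : ‖star ((4 : ℝ) • (y * I.inv)) * ((4 : ℝ) • (y * I.inv))‖ ≤ 1 := by
      rw [hf]
      refine norm_cfc_le zero_le_one fun t ht => ?_
      obtain ⟨h1, h2⟩ := hspec t ht
      rw [max_eq_left h1, Real.norm_of_nonneg (by positivity), mul_comm _ t, mul_assoc, ← mul_inv,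
        ← div_eq_mul_inv, ← mul_div_assoc, div_le_one (by positivity)]
      nlinarith [sq_nonneg (1 - 4 * t)]
    rw [CStarRing.norm_star_mul_self] at h1
    nlinarith [norm_nonneg ((4 : ℝ) • (y * I.inv))]
  · rw [smul_mul_smul_comm, show y * I.inv * (y * I.inv) = y * (I.inv * y) * I.inv by
      simp only [mul_assoc], hIy, h0, zero_mul, smul_zero]
  · rw [smul_mul_assoc, mul_assoc, ← hIP.eq, ← mul_assoc, hyP]
  · rw [mul_smul_comm, ← mul_assoc, hPy, zero_mul, smul_zero]
  · rw [mul_smul_comm, ← mul_assoc, hCy, zero_mul, smul_zero]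
  · have hfc : Continuous fun t : ℝ => 16 * ((1 + 4 * max t 0)⁻¹ * t * (1 + 4 * max t 0)⁻¹) :=
      continuous_const.mul ((hg.mul continuous_id).mul hg)
    have hgc : Continuous fun t : ℝ =>
        max (16 * ((1 + 4 * max t 0)⁻¹ * t * (1 + 4 * max t 0)⁻¹) - 1 / 2) 0 :=
      (hfc.sub continuous_const).max continuous_const
    have hm : ∀ r : ℝ, Continuous fun t : ℝ => max (t - r) 0 := fun r =>
      (continuous_id.sub continuous_const).max continuous_const
    rw [hf, cut, cut, ← cfc_comp' (fun t : ℝ => max (t - 1 / 2) 0) _ X (hm _).continuousOn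
        hfc.continuousOn,
      ← cfc_smul (8 : ℝ) (fun t : ℝ =>
        max (16 * ((1 + 4 * max t 0)⁻¹ * t * (1 + 4 * max t 0)⁻¹) - 1 / 2) 0) X hgc.continuousOn]
    refine cfc_mono (fun t ht => ?_) (hm _).continuousOn (hgc.const_smul (8 : ℝ)).continuousOn
    obtain ⟨h1, h2⟩ := hspec t ht
    rw [smul_eq_mul, max_eq_left h1]
    rcases le_total t (1 / 10) with h3 | h3
    · rw [max_eq_right (by linarith : t - 1 / 10 ≤ 0)]
      positivity
    · rw [max_eq_left (by linarith : 0 ≤ t - 1 / 10)]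
      have h4 : 16 / 25 ≤ 16 * ((1 + 4 * t)⁻¹ * t * (1 + 4 * t)⁻¹) := by
        rw [mul_comm _ t, mul_assoc, ← mul_inv, ← div_eq_mul_inv, ← mul_div_assoc,
          le_div_iff₀ (by positivity)]
        nlinarith [mul_nonneg (sub_nonneg.2 h2) (show (0 : ℝ) ≤ 16 * t - 1 by linarith)]
      nlinarith [le_max_left (16 * ((1 + 4 * t)⁻¹ * t * (1 + 4 * t)⁻¹) - 1 / 2) 0]

end

end Vale.Agent.P095.All.Square
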