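import Vale.Agent.P095.All.Square.Marks
import Vale.Agent.P095.All.Square.Reshape
import Vale.Agent.P095.All.Row.Targets
import Vale.Agent.P095.All.Targets

/-!
# P095 Square: one block for an action
-/

namespace Vale.Agent.P095.All.Square

open Vale.Agent.P101.KR Finset
open Vale.Agent.P095.Amen hiding Setting LettersTarget SquareTarget CoinTarget
open Vale.Agent.P095.Amen.Square (FullW pi pi_mem pi_mul pi_pos pi_le_one pi_fixed pi_mul_eq_zero
  fullW_pi dim_pi fullW_of_subset dim_le_conj posIn commute_list_prod)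
open scoped CStarAlgebra

noncomputable section

/-- The numbers of blocks and their values. -/
theorem counts {n : ℕ} (hn : 0 < n) {θ : ℝ} (hθ0 : 0 ≤ θ) (hθ : θ ≤ 1 / (128 * n)) :
    (((8 : ℕ) ^ (n - 1) : ℕ) : ℝ) * (1 / 8 + θ) ^ n ≤ 1 / 6 ∧
      2 * (1 / 8 + θ) ^ n ≤ (1 : ℝ) ∧ θ ≤ 1 / 128 ∧
      (1 / 8 + θ) ^ n ≤ 2 * (1 / 8 - θ) ^ n ∧
      1 / 16 ≤ (((8 : ℕ) ^ (n - 1) : ℕ) : ℝ) *
        (4 / 5 * (1 / 8 - θ) ^ n * (1 - 2 * (1 / 8 + θ) ^ n) ^ ((8 : ℕ) ^ (n - 1))) := by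
  obtain ⟨m, rfl⟩ : ∃ m, n = m + 1 := ⟨n - 1, by omega⟩
  have hn1 : (1 : ℝ) ≤ (m + 1 : ℕ) := by exact_mod_cast Nat.succ_le_succ (Nat.zero_le m)
  set u : ℝ := 8 * θ with hu
  have hu0 : 0 ≤ u := by positivity
  have hnu : ((m + 1 : ℕ) : ℝ) * u ≤ 1 / 16 := by
    rw [le_div_iff₀ (by positivity)] at hθ
    rw [hu]; linarith
  have hu1 : u ≤ 1 / 16 := (le_mul_of_one_le_left hu0 hn1).trans hnu
  have hlow : 15 / 16 ≤ (1 - u) ^ (m + 1) := by
    have := one_add_mul_le_pow (show (-2 : ℝ) ≤ -u by linarith) (m + 1)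
    rw [mul_neg, ← sub_eq_add_neg, ← sub_eq_add_neg] at this
    linarith
  have hhigh : (1 + u) ^ (m + 1) ≤ 16 / 15 := by
    have h1 : (1 + u) ^ (m + 1) * (1 - u) ^ (m + 1) ≤ 1 := by
      rw [← mul_pow]
      exact pow_le_one₀ (mul_nonneg (by linarith) (by linarith)) (by nlinarith)
    nlinarith [pow_nonneg (show (0 : ℝ) ≤ 1 + u by linarith) (m + 1)]
  rw [Nat.add_sub_cancel]
  set L : ℕ := 8 ^ m
  have h8 : (L : ℝ) * (1 / 8) ^ (m + 1) = 1 / 8 := by
    rw [pow_succ, ← mul_assoc, Nat.cast_pow, ← mul_pow]; norm_num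
  have hL1 : (1 : ℝ) ≤ L := by exact_mod_cast Nat.one_le_pow _ _ (by norm_num)
  have hp : (1 / 8 + θ) ^ (m + 1) = (1 / 8) ^ (m + 1) * (1 + u) ^ (m + 1) := by
    rw [← mul_pow, hu]; congr 1; ring
  have hq : (1 / 8 - θ) ^ (m + 1) = (1 / 8) ^ (m + 1) * (1 - u) ^ (m + 1) := by
    rw [← mul_pow, hu]; congr 1; ring
  have hp0 : 0 ≤ (1 / 8 + θ) ^ (m + 1) := pow_nonneg (by positivity) _
  have hup : (L : ℝ) * (1 / 8 + θ) ^ (m + 1) ≤ 2 / 15 := by
    rw [hp, ← mul_assoc, h8]; linarith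
  refine ⟨hup.trans (by norm_num), by nlinarith, by linarith, ?_, ?_⟩
  · rw [hp, hq, ← mul_assoc (2 : ℝ), mul_comm (2 : ℝ), mul_assoc]
    exact mul_le_mul_of_nonneg_left (by linarith) (by positivity)
  have hexc : 11 / 15 ≤ (1 - 2 * (1 / 8 + θ) ^ (m + 1)) ^ L := by
    have := one_add_mul_le_pow (show (-2 : ℝ) ≤ -(2 * (1 / 8 + θ) ^ (m + 1)) by nlinarith) L
    rw [← sub_eq_add_neg] at this
    linarith
  rw [hq, ← mul_assoc, show (L : ℝ) * (4 / 5 * ((1 / 8) ^ (m + 1) * (1 - u) ^ (m + 1))) =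
    4 / 5 * ((L : ℝ) * (1 / 8) ^ (m + 1)) * (1 - u) ^ (m + 1) by ring, h8]
  calc (1 : ℝ) / 16 ≤ 4 / 5 * (1 / 8) * (15 / 16) * (11 / 15) := by norm_num
    _ ≤ _ := mul_le_mul (mul_le_mul_of_nonneg_left hlow (by norm_num)) hexc (by norm_num)
      (mul_nonneg (by norm_num) (le_trans (by norm_num) hlow))

/-- One block: a support `P`, a letter `C` orthogonal to it, and a row element `y` from `P` to the
complement, almost fixed, with a lower bound on `R`. -/
structure Block {G F : Type} [CStarAlgebra F] [PartialOrder F] (β : G → F ≃⋆ₐ[ℂ] F) (S : Finset G)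
    (qm qp ε : ℝ) where
  t : Set F
  countable : t.Countable
  image_eq : ∀ g, β g '' t = t
  P : Cl t
  C : Cl t
  R : Cl t
  y : Cl t
  fix_P : ∀ g, β g P = P
  fix_C : ∀ g, β g C = C
  P_pos : 0 ≤ (P : F) ∧ (P : F) ≤ 1
  C_pos : 0 ≤ (C : F) ∧ (C : F) ≤ 1
  R_star : IsSelfAdjoint R
  y_P : y * P = y
  P_y : P * y = 0
  P_C : P * C = 0
  C_y : C * y = 0
  norm_y : ‖y‖ ≤ 1
  almost : ∀ g ∈ S, ‖β g y - y‖ ≤ ε
  low : (1 / 2 : ℝ) • ((R : F) * R) ≤ (R : F) * (star (y : F) * y) * R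
  dim_P : ∀ d : Dim (Cl t), d.d P ≤ qp
  dim_R : ∀ d : Dim (Cl t), qm ≤ d.d ((R * R : Cl t) : F)
  full_R : FullW (Cl t) ((R * R : Cl t) : F)
  full_C : FullW (Cl t) ((C * C : Cl t) : F)

variable {G : Type} [Group G] [Countable G] {F : Type} [CStarAlgebra F] [PartialOrder F]
  [StarOrderedRing F] {β : G → F ≃⋆ₐ[ℂ] F} {S : Finset G}

/-- A block of any accuracy. -/
theorem exists_block (hC : CompareTarget) (hL : LettersTarget) (hR : RowLTarget)
    (hS : Setting β S) {ε : ℝ} (hε : 0 < ε) :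
    ∃ (n : ℕ) (θ : ℝ), 0 < n ∧ 0 ≤ θ ∧ θ ≤ 1 / (128 * n) ∧
      Nonempty (Block β S (4 / 5 * (1 / 8 - θ) ^ n) ((1 / 8 + θ) ^ n) ε) := by
  obtain ⟨Cd, hCd, hTD⟩ := hS.traceDim (1 / 8) (by norm_num)
  set ε₀ := min (ε / 36) (1 / 100)
  have hε₀ : 0 < ε₀ := lt_min (by positivity) (by norm_num)
  set γ : ℝ := 1 / (10 * (Cd + 1))
  obtain ⟨n, θ₀, hn, hθ₀, hrow⟩ := hR G S hS.amenable ε₀ (7 / 64) γ hε₀ (by norm_num) (by norm_num)
    (by positivity)
  set θ := min (θ₀ / 2) (1 / (128 * n))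
  have hθ : 0 < θ := lt_min (by positivity) (by positivity)
  obtain ⟨-, -, hθ1, hratio, -⟩ := counts hn hθ.le (min_le_right _ _)
  obtain ⟨Le⟩ := hL G F β S hS (1 / 8) θ hθ (by linarith) (by norm_num)
  obtain ⟨M⟩ := exists_marks hC hS (by linarith) Le
  obtain ⟨copies⟩ := hS.copies M.t M.countable M.image_eq
  let κ : Copies' β M.t (Fin n) := copies.reindexed (fun i => 2 * (i : ℕ))
    fun i j h => Fin.ext (by simpa using h)
  let μ : Copies' β M.t (Fin n) := copies.reindexed (fun i => 2 * (i : ℕ) + 1)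
    fun i j h => Fin.ext (by simpa using h)
  have hκμ : ∀ i j u v, Commute (κ.hom i u) (μ.hom j v) := fun i j => copies.comm _ _ (by show 2 * (i : ℕ) ≠ 2 * (j : ℕ) + 1; omega)
  have hfix := M.fix
  have hpos := M.pos
  obtain ⟨hS1, hS1'⟩ := hpos M.S1 (by simp)
  obtain ⟨hS', hS''⟩ := hpos M.S' (by simp)
  obtain ⟨hU, hU'⟩ := hpos M.U (by simp)
  obtain ⟨hC0, hC0'⟩ := hpos M.C0 (by simp)
  have hnorm : ∀ {u : F}, 0 ≤ u → u ≤ 1 → ‖u‖ ≤ 1 := fun h h' =>
    (CStarAlgebra.norm_le_one_iff_of_nonneg _ h).2 h'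
  obtain ⟨y, W, h, hym, hWm, hhm, hW0, hW1, hh, hhh, -, -, hy1, halm, hy0, hyP, hPy, hlow, hPcl,
      hRcl⟩ :=
    hrow F β hS.mul M.t M.countable M.image_eq M.t M.countable M.image_eq M.S1 M.S' M.E M.X
      (fun g u hu => hfix g u (by rcases hu with rfl | rfl | rfl <;> simp))
      hS1.isSelfAdjoint.star_eq hS'.isSelfAdjoint.star_eq (hnorm hS1 hS1') (hnorm hS' hS'')
      M.norm_X M.comm M.S'_S1 M.S'_X M.X_S' M.E_X M.X_X M.A M.B M.fa M.fb M.fc
      (fun g u hu => hfix g u (by rcases hu with rfl | rfl <;> simp))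
      (Coin.sqLe_iff.2 (hpos M.A (by simp)).1) (Coin.sqLe_iff.2 (hpos M.A (by simp)).2)
      (Coin.sqLe_iff.2 (hpos M.B (by simp)).1) (Coin.sqLe_iff.2 (hpos M.B (by simp)).2)
      M.A_B (fun τ hτ => ⟨(M.trace_AB τ hτ).1.trans (by linarith [min_le_left (θ₀ / 2) (1 / (128 * (n : ℝ)))]),
        (M.trace_AB τ hτ).2.trans (by linarith [min_le_left (θ₀ / 2) (1 / (128 * (n : ℝ)))])⟩)
      M.A_fa M.B_fa M.A_fb M.B_fb M.A_fc M.B_fc M.full_f κ μ hκμ
  set u₀ := gens κ.hom ∪ gens μ.hom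
  have hu₀ : u₀.Countable := (countable_gens _ M.countable).union (countable_gens _ M.countable)
  have hκm : ∀ i x, κ.hom i x ∈ Cl u₀ := mem_gens κ.hom Set.subset_union_left
  have hμm : ∀ i x, μ.hom i x ∈ Cl u₀ := mem_gens μ.hom Set.subset_union_right
  have hranges : Cl ((⋃ i, Set.range (κ.hom i)) ∪ ⋃ i, Set.range (μ.hom i)) ≤ Cl u₀ :=
    Cl_le (isClosed_Cl _) (by
      rintro _ (hx | hx) <;> obtain ⟨i, a, rfl⟩ := Set.mem_iUnion.1 hx
      exacts [hκm i a, hμm i a])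
  have hWu : W ∈ Cl u₀ := hranges hWm
  have hhu : h ∈ Cl u₀ := hranges hhm
  have hyu : y ∈ Cl u₀ := hranges hym
  have hcκ : ∀ i j, i ≠ j → ∀ a b, Commute (κ.hom i a) (κ.hom j b) := κ.comm
  set P := pi κ.hom M.S'
  set p := pi κ.hom M.S1
  set R := pi κ.hom M.U
  set R' := pi κ.hom M.R0
  set C := pi κ.hom M.C0
  have hsR : IsSelfAdjoint R := (pi_pos hcκ hU).isSelfAdjoint
  have hsR' : IsSelfAdjoint R' := (pi_pos hcκ M.pos_R).isSelfAdjoint
  have hsp : IsSelfAdjoint p := (pi_pos hcκ hS1).isSelfAdjoint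
  have hRp : R * p = R := by rw [pi_mul hcκ, M.U_S1]
  have hRR' : R * R' = R' := by
    have := congrArg star (show R' * R = R' by rw [pi_mul hcκ, M.R_U])
    rwa [star_mul, hsR.star_eq, hsR'.star_eq] at this
  have hR1 : R ≤ 1 := pi_le_one hcκ hU hU'
  have hR0 : 0 ≤ R := pi_pos hcκ hU
  have hRR1 : R * R ≤ 1 :=
    (Amen.Square.commute_mul_le hR0 hR1 (Commute.refl _)).trans hR1
  have hRu : R ∈ Cl u₀ := pi_mem hκm _
  obtain ⟨htr, K, v, hv, hdefect⟩ := hRcl R hsR.star_eq hRp fun i x =>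
    (commute_list_prod fun z hz => by
      obtain ⟨j, rfl⟩ := List.mem_ofFn.1 hz
      exact (hκμ j i M.U x).symm).symm
  -- what the guard hides is small in every state
  have hW0' := Coin.sqLe_iff.1 hW0
  have hW1' := Coin.sqLe_iff.1 hW1
  have hRWR : R * W * R ≤ 1 := by
    have := IsSelfAdjoint.conjugate_le_conjugate hW1' hsR
    rw [mul_one] at this
    exact this.trans hRR1
  have hdU : ∀ d : Dim (Cl u₀), d.d (R * R) ≤ (1 / 8 + θ) ^ n := fun d => by
    rw [pi_mul hcκ]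
    exact (dim_pi hcκ hκm d (u := M.U * M.U) hU.isSelfAdjoint.mul_self_nonneg le_rfl (by linarith)
      fun d' => ⟨d'.nonneg (posIn (M.U * M.U).2 hU.isSelfAdjoint.mul_self_nonneg), M.dim_U d'⟩).2
  obtain ⟨q, hqc, huq, -, -, hqd⟩ := hTD u₀ hu₀ (⟨R, hRu⟩ * ⟨W, hWu⟩ * ⟨R, hRu⟩)
    (Coin.sqLe_iff.2 (IsSelfAdjoint.conjugate_nonneg hW0' hsR)) (Coin.sqLe_iff.2 hRWR)
    (γ * (1 / 8 + θ) ^ n) (mul_nonneg (by positivity) (pow_nonneg (by linarith) _))
    (fun τ hτ => (htr u₀ hu₀ hRu hWu hκm hμm τ hτ).trans (mul_le_mul_of_nonneg_left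
      (trace_le_of_dims (posTr hτ) hτ.one (posIn (mul_mem hRu hRu) hsR.mul_self_nonneg)
        (posIn (sub_mem (one_mem _) (mul_mem hRu hRu)) (sub_nonneg.2 hRR1)) hdU) (by positivity)))
    ∅ Set.countable_empty (fun x _ w hw => absurd hw (Set.notMem_empty w))
  -- the flip
  set Y := star y * y
  have hflip : h * R * star (h * R) ≤ (2 : ℝ) • cut (1 / 10) Y + (11 / 50 : ℝ) • (1 : F) := by
    have h1 := Coin.sqLe_iff.1 hlow
    have hRpp : R * R ≤ p * p := by
      have h2 := IsSelfAdjoint.conjugate_le_conjugate hRR1 hsp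
      rw [mul_one] at h2
      refine le_of_eq_of_le ?_ h2
      have hpR : p * R = R := by
        have := congrArg star hRp
        rwa [star_mul, hsp.star_eq, hsR.star_eq] at this
      rw [← mul_assoc p R R, hpR, mul_assoc, hRp]
    have h3 := IsSelfAdjoint.conjugate_le_conjugate hRpp (show IsSelfAdjoint h from hh)
    have h4 : h * R * star (h * R) = h * (R * R) * h := by
      rw [star_mul, hh, hsR.star_eq]; simp only [mul_assoc]
    have h5 := smul_le_smul_of_nonneg_left h1 (show (0 : ℝ) ≤ 2 by norm_num)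
    rw [smul_smul] at h5
    norm_num at h5
    rw [h4]
    refine h3.trans (h5.trans ?_)
    refine le_trans ?_ (le_of_eq_of_le rfl (add_le_add le_rfl (smul_le_smul_of_nonneg_right
      (show 2 / 10 + 2 * ε₀ ≤ 11 / 50 by linarith [min_le_right (ε / 36) (1 / 100 : ℝ)])
      (zero_le_one (α := F)))))
    rw [smul_smul, add_smul]
    have h6 := smul_le_smul_of_nonneg_left
      (Coin.le_cut_add (IsSelfAdjoint.star_mul_self y) (1 / 10)) (show (0 : ℝ) ≤ 2 by norm_num)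
    rw [smul_add, smul_smul] at h6
    refine (add_le_add h6 le_rfl).trans_eq ?_
    module
  have hzz : star (h * R) * (h * R) = R * (1 - W) * R := by
    rw [star_mul, hh, hsR.star_eq, ← hhh]; simp only [mul_assoc]
  have hfullR' : FullPos (R' * R') := by
    rw [pi_mul hcκ]
    exact (fullW_pi hcκ hκm M.full_R).fullPos
  have hfullY : FullPos (cut (1 / 10) Y) := fullPos_of_defect (Coin.cut_nonneg' _ _) hsR' hRR' hfullR'
    v hv (z := h * R) (by rw [hzz]; exact Coin.sqLe_iff.1 hdefect) hflip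
  have hP0 := pi_pos hcκ hS'
  have hP1 := pi_le_one hcκ hS' hS''
  have hCy : C * y = 0 := by
    have := hPcl (1 - C) fun i => by
      rw [sub_mul, one_mul, pi_mul_eq_zero hcκ i M.E_C M.C_E, sub_zero]
    rwa [sub_mul, one_mul, sub_eq_self] at this
  obtain ⟨y', hy'm, hy'1, -, hy'P, hPy', hCy', hcut, hy'alm⟩ := exists_reshape (isClosed_Cl u₀) hyu
    hP0.isSelfAdjoint hy1 hy0 hyP hPy hCy
  set Rb := cfc Real.sqrt (cut (1 / 2) (star y' * y'))
  have hRb : Rb * Rb = cut (1 / 2) (star y' * y') := by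
    rw [← cfc_mul Real.sqrt Real.sqrt _ Real.continuous_sqrt.continuousOn
      Real.continuous_sqrt.continuousOn]
    exact (cfc_congr fun x hx => Real.mul_self_sqrt (spectrum_nonneg_of_nonneg
      (Coin.cut_nonneg' _ _) hx)).trans (cfc_id' ℝ _ (Amen.Square.isSelfAdjoint_cut _ _))
  obtain ⟨K', w, hw⟩ : FullPos (Rb * Rb) := by
    refine Coin.fullPos_of_le_conj hfullY (hRb ▸ Amen.Square.isSelfAdjoint_cut _ _)
      (g := Real.sqrt 8 • (1 : F)) ?_
    rw [Amen.Square.conj_smul_one _ (by norm_num), hRb]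
    exact hcut
  set T₀ := q ∪ Set.range w
  set T := orbitAll β T₀
  have hT₀ : T₀ ⊆ T := subset_orbitAll hS.mul T₀
  have huT : Cl u₀ ≤ Cl T := Cl_mono (huq.trans (Set.subset_union_left.trans hT₀))
  have hqT : Cl q ≤ Cl T := Cl_mono (Set.subset_union_left.trans hT₀)
  have hRbu : Rb ∈ Cl u₀ := Coin.cfc_mem' (isClosed_Cl _)
    (Coin.cfc_mem' (isClosed_Cl _) (mul_mem (star_mem hy'm) hy'm) _) _
  have hκT : ∀ i x, κ.hom i x ∈ Cl T := fun i x => huT (hκm i x)
  refine ⟨n, θ, hn, hθ.le, min_le_right _ _, ⟨{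
    t := T
    countable := countable_orbitAll (hqc.union (Set.countable_range w))
    image_eq := image_orbitAll hS.mul T₀
    P := ⟨P, pi_mem hκT _⟩
    C := ⟨C, pi_mem hκT _⟩
    R := ⟨Rb, huT hRbu⟩
    y := ⟨y', huT hy'm⟩
    fix_P := fun g => pi_fixed (σ := β g) (fun i x => κ.equiv i g x x) (hfix g _ (by simp))
    fix_C := fun g => pi_fixed (σ := β g) (fun i x => κ.equiv i g x x) (hfix g _ (by simp))
    P_pos := ⟨hP0, hP1⟩
    C_pos := ⟨pi_pos hcκ hC0, pi_le_one hcκ hC0 hC0'⟩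
    R_star := Subtype.ext (cfc_predicate Real.sqrt (cut (1 / 2) (star y' * y'))).star_eq
    y_P := Subtype.ext hy'P
    P_y := Subtype.ext hPy'
    P_C := Subtype.ext (show P * C = 0 by
      rw [pi_mul hcκ, M.S'_C, Amen.Square.pi_eq]
      exact List.prod_eq_zero (List.mem_map.2 ⟨⟨0, hn⟩, List.mem_finRange _, map_zero _⟩))
    C_y := Subtype.ext hCy'
    norm_y := hy'1
    almost := fun g hg => (hy'alm (β g) ε₀ (halm g hg).1).trans (by
      linarith [min_le_left (ε / 36) (1 / 100 : ℝ)])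
    low := ?_
    dim_P := fun d => (dim_pi hcκ hκT d hS' le_rfl (by linarith) fun d' =>
      ⟨d'.nonneg (posIn M.S'.2 hS'), M.dim_S' d'⟩).2
    dim_R := fun d => ?_
    full_R := ⟨K', w, fun i => subset_Cl _ (hT₀ (Or.inr ⟨i, rfl⟩)), hw⟩
    full_C := ?_ }⟩⟩
  · show (1 / 2 : ℝ) • (Rb * Rb) ≤ Rb * (star y' * y') * Rb
    set Z := star y' * y'
    have hZ : IsSelfAdjoint Z := IsSelfAdjoint.star_mul_self y'
    have hm : Continuous fun t : ℝ => max (t - 1 / 2) 0 :=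
      (continuous_id.sub continuous_const).max continuous_const
    have hRc : Rb = cfc (fun t : ℝ => Real.sqrt (max (t - 1 / 2) 0)) Z :=
      (cfc_comp' Real.sqrt (fun t : ℝ => max (t - 1 / 2) 0) Z
        Real.continuous_sqrt.continuousOn hm.continuousOn).symm
    have hsm : Continuous fun t : ℝ => Real.sqrt (max (t - 1 / 2) 0) := Real.continuous_sqrt.comp hm
    rw [hRb, hRc, Cuntz.cfc_mul_self_mul hZ hsm hsm, cut,
      ← cfc_smul (1 / 2 : ℝ) _ Z hm.continuousOn]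
    refine cfc_mono (fun t _ => ?_) (hm.const_smul (1 / 2 : ℝ)).continuousOn
      ((hsm.mul continuous_id).mul hsm).continuousOn
    rw [mul_comm _ t, mul_assoc, Real.mul_self_sqrt (le_max_right _ _), smul_eq_mul]
    rcases le_total t (1 / 2) with ht | ht
    · rw [max_eq_right (by linarith : t - 1 / 2 ≤ 0)]; simp
    · exact mul_le_mul_of_nonneg_right ht (le_max_right _ _)
  · show 4 / 5 * (1 / 8 - θ) ^ n ≤ d.d (Rb * Rb)
    have hcl := isClosed_Cl T
    have hRT := huT hRu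
    have hhT := huT hhu
    have hWT := huT hWu
    have hzT : h * R ∈ Cl T := mul_mem hhT hRT
    have hYT : Y ∈ Cl T := mul_mem (star_mem (huT hyu)) (huT hyu)
    have hR'T : R' ∈ Cl T := pi_mem hκT _
    have h1 : (1 / 8 - θ) ^ n ≤ d.d (R' * R') := by
      rw [pi_mul hcκ]
      have h0 : (0 : F) ≤ ((M.R0 * M.R0 : Cl M.t) : F) := M.pos_R.isSelfAdjoint.mul_self_nonneg
      exact (dim_pi hcκ hκT d h0 (b := 1) (by linarith) (by linarith) fun d' =>
        ⟨M.dim_R d', d'.le_one (posIn (M.R0 * M.R0).2 h0)⟩).1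
    have h2 : d.d (R' * R') ≤ d.d (cut (1 / 2) (R * R)) :=
      dim_le_conj d hsR'.mul_self_nonneg (mul_mem hR'T hR'T) (Coin.cut_nonneg' _ _)
        (Coin.cfc_mem' hcl (mul_mem hRT hRT) _) (Coin.smul_mem' hR'T _)
        (conj_cut_sq hsR hsR' hRR').ge
    have h3 : d.d (cut (1 / 2) (R * R)) ≤
        d.d (cut (1 / 4) (star (h * R) * (h * R))) + d.d (cut (1 / 8) (R * W * R)) := by
      have := Coin.dim_cut_le hcl d hsR.mul_self_nonneg.isSelfAdjoint (mul_mem hRT hRT)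
        ![cut (1 / 4) (star (h * R) * (h * R)), cut (1 / 8) (R * W * R)] ![1, 1]
        (fun j => by fin_cases j <;> exact Coin.cut_nonneg' _ _)
        (fun j => by
          fin_cases j
          · exact Coin.cfc_mem' hcl (mul_mem (star_mem hzT) hzT) _
          · exact Coin.cfc_mem' hcl (mul_mem (mul_mem hRT hWT) hRT) _)
        (fun j => by fin_cases j <;> exact one_mem _) (r := 3 / 8) (δ := 1 / 2) ?_ (by norm_num)
      · simpa [Fin.sum_univ_two] using this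
      simp only [Fin.sum_univ_two, Matrix.cons_val_zero, Matrix.cons_val_one, star_one, one_mul,
        mul_one]
      have a1 := Coin.le_cut_add (IsSelfAdjoint.star_mul_self (h * R)) (1 / 4)
      have a2 := Coin.le_cut_add (IsSelfAdjoint.of_nonneg
        (IsSelfAdjoint.conjugate_nonneg hW0' hsR)) (1 / 8)
      refine le_trans ?_ ((add_le_add a1 a2).trans_eq (by module))
      rw [hzz, mul_sub, mul_one, sub_mul, sub_add_cancel]
    have h4 : d.d (cut (1 / 4) (star (h * R) * (h * R))) ≤ d.d (cut (1 / 10) Y) := by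
      rw [d.flip_cut hzT (by norm_num : (0 : ℝ) < 1 / 4)]
      have := Coin.dim_cut_le hcl d (IsSelfAdjoint.mul_star_self (h * R))
        (mul_mem hzT (star_mem hzT)) ![cut (1 / 10) Y] ![Real.sqrt 2 • (1 : F)]
        (fun j => by fin_cases j; exact Coin.cut_nonneg' _ _)
        (fun j => by fin_cases j; exact Coin.cfc_mem' hcl hYT _)
        (fun j => by fin_cases j; exact Coin.smul_mem' (one_mem _) _)
        (r := 11 / 50) (δ := 1 / 4)
        (hflip.trans_eq (by simp [smul_smul])) (by norm_num)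
      simpa using this
    have h5 : d.d (cut (1 / 10) Y) ≤ d.d (Rb * Rb) :=
      d.mono_smul (posIn (Coin.cfc_mem' hcl hYT _) (Coin.cut_nonneg' _ _))
        (posIn (mul_mem (huT hRbu) (huT hRbu)) (hRb ▸ Coin.cut_nonneg' _ _))
        (by norm_num : (0 : ℝ) ≤ 8) (Coin.sqLe_iff.2 (by rw [hRb]; exact hcut))
    have h6 : d.d (cut (1 / 8) (R * W * R)) ≤ Cd * (γ * (1 / 8 + θ) ^ n) := hqd (d.restrict hqT)
    have h7 : Cd * γ ≤ 1 / 10 := by
      rw [show Cd * γ = Cd / (10 * (Cd + 1)) by ring, div_le_iff₀ (by positivity)]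
      linarith
    have h8 := mul_le_mul h7 hratio (pow_nonneg (by linarith) _) (by norm_num)
    rw [← mul_assoc] at h6
    linarith
  · show FullW (Cl T) (C * C)
    rw [pi_mul hcκ]
    exact fullW_pi hcκ hκT M.full_C

end

end Vale.Agent.P095.All.Square
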