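import Vale.Agent.P095.All.Targets
import Vale.Agent.P095.Amen.Square.Bank

/-!
# P095 Square: banks of blocks respected by an action, and what is made from one
-/

namespace Vale.Agent.P095.All.Square

open Vale.Agent.P101.KR
open Vale.Agent.P095.Amen hiding Setting LettersTarget SquareTarget CoinTarget
open Vale.Agent.P095.Amen.Square (Bank)
open scoped CStarAlgebra

noncomputable section

/-- The action keeps every block, fixes its support and letter, and moves its row element by at
most `ε`. The bank is one for the identity automorphism. -/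
structure Respects {G F : Type} [CStarAlgebra F] [PartialOrder F] [StarOrderedRing F] {L : ℕ}
    {qm qp εr : ℝ} (β : G → F ≃⋆ₐ[ℂ] F) (S : Finset G) (ε : ℝ)
    (b : Bank (StarAlgEquiv.refl ℂ F) L qm qp εr) : Prop where
  fix_P : ∀ g l, β g (b.P l) = b.P l
  fix_C : ∀ g l, β g (b.C l) = b.C l
  mem : ∀ g l, ∀ x ∈ Cl (b.t l), β g x ∈ Cl (b.t l)
  almost : ∀ g ∈ S, ∀ l, ‖β g (b.y l) - b.y l‖ ≤ ε

/-- A respected bank gives, through the guard, an almost fixed element of square zero, full and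
large. How fixed the blocks must be depends only on the group and the accuracy. -/
def GuardedTarget : Prop :=
  ∀ (G : Type) [Group G] (S : Finset G) (e : ℝ), 0 < e → ∃ ε : ℝ, 0 < ε ∧
    ∀ (F : Type) [CStarAlgebra F] [PartialOrder F] [StarOrderedRing F] (β : G → F ≃⋆ₐ[ℂ] F),
      (∀ g h x, β (g * h) x = β g (β h x)) →
      ∀ (L : ℕ) (qm qp : ℝ) (b : Bank (StarAlgEquiv.refl ℂ F) L qm qp ((1 / 16 : ℝ) ^ 3)),
        Respects β S ε b → 0 < L → 0 ≤ qp → 2 * qp ≤ 1 → 0 ≤ qm →
        1 / 16 ≤ L * (qm * (1 - 2 * qp) ^ L) → (L : ℝ) * qp ≤ 1 / 6 →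
        ∃ z : F, ‖z‖ ≤ 1 ∧ z * z = 0 ∧ (∀ g ∈ S, ‖β g z - z‖ ≤ e) ∧
          FullPos (cut (1 / 100000) (star z * z)) ∧ DGe (cut (1 / 100000) (star z * z)) (1 / 25)

end

end Vale.Agent.P095.All.Square
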