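import Vale.Agent.P095.All.Square.Block
import Vale.Agent.P095.All.Square.Respects

/-!
# P095 Square: the bank of blocks for an action
-/

namespace Vale.Agent.P095.All.Square

open Vale.Agent.P101.KR Finset
open Vale.Agent.P095.Amen hiding Setting LettersTarget SquareTarget CoinTarget
open Vale.Agent.P095.Amen.Square (Bank FullW map_mem_Cl map_nonneg' commute_blocks dim_hom_mul posIn)
open scoped CStarAlgebra

noncomputable section

variable {G : Type} [Group G] [Countable G] {F : Type} [CStarAlgebra F] [PartialOrder F]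
  [StarOrderedRing F] {β : G → F ≃⋆ₐ[ℂ] F} {S : Finset G}

/-- Commuting copies of one block are a bank which the action respects. -/
theorem exists_bank (hC : CompareTarget) (hL : LettersTarget) (hR : RowLTarget)
    (hS : Setting β S) {ε : ℝ} (hε : 0 < ε) :
    ∃ (L : ℕ) (qm qp : ℝ) (b : Bank (StarAlgEquiv.refl ℂ F) L qm qp ((1 / 16 : ℝ) ^ 3)),
      Respects β S ε b ∧ 0 < L ∧ 0 ≤ qp ∧ 2 * qp ≤ 1 ∧ 0 ≤ qm ∧
      1 / 16 ≤ L * (qm * (1 - 2 * qp) ^ L) ∧ (L : ℝ) * qp ≤ 1 / 6 := by
  obtain ⟨n, θ, hn, hθ0, hθ, ⟨B⟩⟩ := exists_block hC hL hR hS hε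
  obtain ⟨hup, hsmall, hθ1, -, hlow⟩ := counts hn hθ0 hθ
  set L := 8 ^ (n - 1)
  set qm := 4 / 5 * (1 / 8 - θ) ^ n
  set qp := (1 / 8 + θ) ^ n
  have hqp : 0 ≤ qp := pow_nonneg (by linarith) _
  have hqm : 0 ≤ qm := mul_nonneg (by norm_num) (pow_nonneg (by linarith) _)
  obtain ⟨copies⟩ := hS.copies B.t B.countable B.image_eq
  let φ : Fin L → Fin 1 → Cl B.t →⋆ₐ[ℂ] F := fun l _ => copies.hom l
  have hcb : ∀ l m i j, (l, i) ≠ (m, j) → ∀ a b, Commute (φ l i a) (φ m j b) :=
    fun l m i j h a b => copies.comm _ _ (fun e => h (Prod.ext (Fin.ext e) (Subsingleton.elim i j))) a b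
  let t : Fin L → Set F := fun l => ⋃ i, φ l i '' {a : Cl B.t | (a : F) ∈ B.t}
  have hφ : ∀ l (a : Cl B.t), φ l 0 a ∈ Cl (t l) := fun l =>
    mem_gens (φ l) (Set.Subset.refl _) 0
  have hpos : ∀ l (a : Cl B.t), 0 ≤ (a : F) → (a : F) ≤ 1 → 0 ≤ φ l 0 a ∧ φ l 0 a ≤ 1 := by
    intro l a h0 h1
    refine ⟨map_nonneg' _ h0, sub_nonneg.1 ?_⟩
    have := map_nonneg' (φ l 0) (u := 1 - a) (by simpa using h1)
    rwa [map_sub, map_one] at this
  have hdim : ∀ l (a : Cl B.t), 0 ≤ (a : F) → ∀ lo hi : ℝ, 0 ≤ lo →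
      (∀ d : Dim (Cl B.t), lo ≤ d.d a ∧ d.d a ≤ hi) →
      ∀ d : Dim (Cl (t l)), lo ≤ d.d (φ l 0 a) ∧ d.d (φ l 0 a) ≤ hi := fun l a h0 lo hi hlo hb d => by
    have := dim_hom_mul d (φ l 0) (hφ l) h0 (map_nonneg' _ h0) zero_le_one (one_mem _)
      (fun x => Commute.one_right _) hlo hb
    rwa [mul_one, d.one, mul_one, mul_one] at this
  refine ⟨L, qm, qp,
    { t := t
      P := fun l => φ l 0 B.P
      C := fun l => φ l 0 B.C
      R := fun l => φ l 0 B.R
      y := fun l => φ l 0 B.y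
      countable := fun l => Set.countable_iUnion fun i =>
        (B.countable.preimage Subtype.coe_injective).image _
      image_eq := fun l => by simp
      comm := fun l m hlm u hu w hw => commute_blocks φ hcb hlm hu hw
      P_mem := fun l => hφ l _
      C_mem := fun l => hφ l _
      R_mem := fun l => hφ l _
      y_mem := fun l => hφ l _
      P_pos := fun l => hpos l _ B.P_pos.1 B.P_pos.2
      C_pos := fun l => hpos l _ B.C_pos.1 B.C_pos.2
      R_star := fun l => B.R_star.map (φ l 0)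
      fix_P := fun l => rfl
      fix_C := fun l => rfl
      y_P := fun l => by rw [← map_mul, B.y_P]
      P_y := fun l => by rw [← map_mul, B.P_y, map_zero]
      P_C := fun l => by rw [← map_mul, B.P_C, map_zero]
      C_y := fun l => by rw [← map_mul, B.C_y, map_zero]
      norm_y := fun l => (NonUnitalStarAlgHom.norm_apply_le (φ l 0) B.y).trans B.norm_y
      almost := fun l => by
        show ‖φ l 0 B.y - φ l 0 B.y‖ ≤ _
        rw [sub_self, norm_zero]; positivity
      low := fun l => ?_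
      dim_P := fun l d => (hdim l B.P B.P_pos.1 0 qp le_rfl (fun d' =>
        ⟨d'.nonneg (posIn B.P.2 B.P_pos.1), B.dim_P d'⟩) d).2
      dim_R := fun l d => ?_
      full_R := fun l => ?_
      full_C := fun l => ?_ }, ?_, pow_pos (by norm_num) _, hqp, hsmall, hqm, hlow, hup⟩
  · rw [← map_mul, ← map_star, ← map_mul, ← map_mul, ← map_mul, ← Complex.coe_smul, ← map_smul]
    have h := map_nonneg' (φ l 0) (u := B.R * (star B.y * B.y) * B.R -
      ((1 / 2 : ℝ) : ℂ) • (B.R * B.R)) (sub_nonneg.2 (by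
        rw [Complex.coe_smul]; exact B.low))
    rwa [map_sub, sub_nonneg] at h
  · rw [← map_mul]
    have h0 : (0 : F) ≤ ((B.R * B.R : Cl B.t) : F) :=
      (B.R_star.map (Cl B.t).subtype).mul_self_nonneg
    exact (hdim l (B.R * B.R) h0 qm 1 hqm (fun d' =>
      ⟨B.dim_R d', d'.le_one (posIn (B.R * B.R).2 h0)⟩) d).1
  · rw [← map_mul]; exact B.full_R.map (φ l 0) (hφ l)
  · rw [← map_mul]; exact B.full_C.map (φ l 0) (hφ l)
  · constructor
    · exact fun g l => copies.equiv _ g B.P B.P (B.fix_P g)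
    · exact fun g l => copies.equiv _ g B.C B.C (B.fix_C g)
    · intro g l x hx
      refine (Cl_le (S := (Cl (t l)).comap (β g).toStarAlgHom)
        ((isClosed_Cl _).preimage (map_continuous (β g).toStarAlgHom)) (fun a ha => ?_)) hx
      obtain ⟨i, z, hz, rfl⟩ := Set.mem_iUnion.1 ha
      have h : β g (z : F) ∈ B.t := (Set.ext_iff.1 (B.image_eq g) _).1 (Set.mem_image_of_mem _ hz)
      show β g (copies.hom l z) ∈ Cl (t l)
      rw [copies.equiv _ g z ⟨_, subset_Cl B.t h⟩ rfl]
      exact hφ l _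
    · intro g hg l
      have hm : β g (B.y : F) ∈ Cl B.t := by
        refine (Cl_le (S := (Cl B.t).comap (β g).toStarAlgHom)
          ((isClosed_Cl _).preimage (map_continuous (β g).toStarAlgHom)) (fun a ha => ?_)) B.y.2
        exact subset_Cl _ ((Set.ext_iff.1 (B.image_eq g) _).1 (Set.mem_image_of_mem _ ha))
      show ‖β g (copies.hom l B.y) - copies.hom l B.y‖ ≤ ε
      rw [copies.equiv _ g B.y ⟨_, hm⟩ rfl, ← map_sub]
      exact (NonUnitalStarAlgHom.norm_apply_le (copies.hom l) _).trans (B.almost g hg)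

end

end Vale.Agent.P095.All.Square
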