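import Vale.Agent.P095.All.Square.Rank
import Vale.Agent.P095.All.Orbit
import Vale.Agent.P095.Amen.Square.Build

/-!
# P095 Square: what a block needs of the letters
-/

namespace Vale.Agent.P095.All.Square

open Vale.Agent.P101.KR Finset
open Vale.Agent.P095.Amen hiding Setting LettersTarget SquareTarget CoinTarget
open Vale.Agent.P095.Amen.Square (FullW root_cut unit_mul_bump scale_x fixed_cfc continuous_bump
  bump_nonneg bump_le_one commute_mul_le fullPos_sq fullW_of_subset)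
open scoped CStarAlgebra

noncomputable section

variable {G : Type} {F : Type} [CStarAlgebra F]

/-- Bounds of all states are bounds of a trace of any mass. -/
theorem trace_bounds {s : Set F} {σ : Cl s →ₗ[ℂ] ℂ} (hσ : Coin.PosTr σ) {u v : Cl s}
    (p0 : PosIn (Cl s) (u : F)) (p1 : PosIn (Cl s) (1 - (u : F))) (pv : PosIn (Cl s) (v : F))
    (huv : u * v = v) {lo hi : ℝ} (hlo : ∀ d : Dim (Cl s), lo ≤ d.d v)
    (hhi : ∀ d : Dim (Cl s), d.d u ≤ hi) :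
    lo * (σ 1).re ≤ (σ u).re ∧ (σ u).re ≤ hi * (σ 1).re := by
  let _ := CStarAlgebra.spectralOrder (Cl s)
  let _ := CStarAlgebra.spectralOrderedRing (Cl s)
  have hu0' : 0 ≤ u := nonneg_sub p0
  have hu1' : u ≤ 1 := sub_nonneg.1 (nonneg_sub (u := 1 - u) p1)
  have him := (hσ.of_nonneg (zero_le_one : (0 : Cl s) ≤ 1)).2
  rcases hσ.mass_nonneg.eq_or_lt with h0 | h0
  · have h1 := hσ.mono hu1'
    have h2 := (hσ.of_nonneg hu0').1
    rw [← h0] at h1 ⊢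
    constructor <;> linarith
  set m := (σ 1).re
  set σ' : Cl s →ₗ[ℂ] ℂ := ((m⁻¹ : ℝ) : ℂ) • σ
  have hσ' : Coin.PosTr σ' := by
    refine ⟨fun x => ?_, fun x y => by simp [σ', hσ.comm x y]⟩
    have := Complex.nonneg_iff.1 (hσ.nonneg x)
    refine Complex.nonneg_iff.2 ⟨?_, ?_⟩
    · simp only [σ', LinearMap.smul_apply, smul_eq_mul, Complex.re_ofReal_mul]
      exact mul_nonneg (inv_nonneg.2 h0.le) this.1
    · simp only [σ', LinearMap.smul_apply, smul_eq_mul, Complex.im_ofReal_mul, ← this.2, mul_zero]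
  have hone : σ' 1 = 1 := by
    apply Complex.ext
    · simp only [σ', LinearMap.smul_apply, smul_eq_mul, Complex.re_ofReal_mul]
      exact inv_mul_cancel₀ h0.ne'
    · simp only [σ', LinearMap.smul_apply, smul_eq_mul, Complex.im_ofReal_mul, him, mul_zero]
      rfl
  have e : (σ' u).re = m⁻¹ * (σ u).re := by
    simp only [σ', LinearMap.smul_apply, smul_eq_mul, Complex.re_ofReal_mul]
  have hhi' := trace_le_of_dims hσ' hone p0 p1 hhi
  have hlo' := le_trace_of_dims hσ' hone pv p0 p1 huv hlo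
  rw [e, ← div_eq_inv_mul] at hhi' hlo'
  exact ⟨(le_div_iff₀ h0).1 hlo', (div_le_iff₀ h0).1 hhi'⟩

/-- The trace of `u ⊗ (1 - w)`, from the states of the two commuting banks. -/
theorem trace_pair [PartialOrder F] [StarOrderedRing F] {t T : Set F}
    (φ φ' : Cl t →⋆ₐ[ℂ] Cl T) (hc : ∀ x y, Commute (φ x) (φ' y)) {τ : Cl T →ₗ[ℂ] ℂ}
    (hτ : IsTrace (Cl T) τ) {u w v : Cl t} (hu : 0 ≤ (u : F) ∧ (u : F) ≤ 1)
    (hw : 0 ≤ (w : F) ∧ (w : F) ≤ 1) (hv : 0 ≤ (v : F)) (huv : u * v = v) (hwv : w * v = v)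
    {α θ : ℝ} (hθ : θ ≤ α) (hlo : ∀ d : Dim (Cl t), α - θ ≤ d.d v)
    (hu' : ∀ d : Dim (Cl t), d.d u ≤ α + θ) (hw' : ∀ d : Dim (Cl t), d.d w ≤ α + θ) :
    α - θ - (α + θ) ^ 2 ≤ (τ (φ u * φ' (1 - w))).re ∧
      (τ (φ u * φ' (1 - w))).re ≤ α + θ - (α - θ) ^ 2 := by
  have hτ' := posTr hτ
  have b1 : ∀ (ψ : Cl t →⋆ₐ[ℂ] Cl T) (z : Cl t), 0 ≤ (z : F) → (z : F) ≤ 1 → z * v = v →
      (∀ d : Dim (Cl t), d.d z ≤ α + θ) →
      α - θ ≤ (τ (ψ z)).re ∧ (τ (ψ z)).re ≤ α + θ := fun ψ z h0 h1 hzv hd => by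
    have h := trace_bounds (hτ'.comp ψ) (Amen.Square.posIn z.2 h0)
      (Amen.Square.posIn (sub_mem (one_mem _) z.2) (sub_nonneg.2 h1)) (Amen.Square.posIn v.2 hv) hzv
      hlo hd
    simp only [LinearMap.coe_comp, Function.comp_apply, AlgHom.toLinearMap_apply,
      StarAlgHom.coe_toAlgHom, map_one, hτ.one, Complex.one_re, mul_one] at h
    exact h
  obtain ⟨hu1, hu2⟩ := b1 φ u hu.1 hu.2 huv hu'
  obtain ⟨hw1, hw2⟩ := b1 φ' w hw.1 hw.2 hwv hw'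
  let r₀ : Cl t := ⟨cfc Real.sqrt (w : F), Coin.cfc_mem' (isClosed_Cl _) w.2 _⟩
  have hrr : r₀ * r₀ = w := Subtype.ext (by
    show cfc Real.sqrt (w : F) * cfc Real.sqrt (w : F) = w
    rw [← cfc_mul Real.sqrt Real.sqrt (w : F) Real.continuous_sqrt.continuousOn
      Real.continuous_sqrt.continuousOn]
    exact (cfc_congr fun x hx => Real.mul_self_sqrt (spectrum_nonneg_of_nonneg hw.1 hx)).trans
      (cfc_id' ℝ (w : F) hw.1.isSelfAdjoint))
  have hr : IsSelfAdjoint r₀ := Subtype.ext (show star (cfc Real.sqrt (w : F)) = _ from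
    (cfc_predicate Real.sqrt (w : F)).star_eq)
  obtain ⟨h1, h2⟩ := trace_bounds (hτ'.weight φ (fun b => hc b r₀) (hr.map φ'))
    (Amen.Square.posIn u.2 hu.1) (Amen.Square.posIn (sub_mem (one_mem _) u.2) (sub_nonneg.2 hu.2))
    (Amen.Square.posIn v.2 hv) huv
    hlo hu'
  simp only [LinearMap.coe_comp, Function.comp_apply, AlgHom.toLinearMap_apply,
    StarAlgHom.coe_toAlgHom, LinearMap.mulRight_apply, map_one, one_mul, ← map_mul φ', hrr] at h1 h2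
  have e : (τ (φ u * φ' (1 - w))).re = (τ (φ u)).re - (τ (φ u * φ' w)).re := by
    rw [map_sub, map_one, mul_sub, mul_one, map_sub, Complex.sub_re]
  have h0 : 0 ≤ α - θ := by linarith
  have h3 := mul_le_mul_of_nonneg_left hw1 h0
  have hpl : 0 ≤ α + θ := by linarith
  have h4 := mul_le_mul_of_nonneg_left hw2 hpl
  rw [e]
  constructor <;> nlinarith

/-- The letters in the form the row element wants, with two marks of traces near `7 / 64`. -/
structure Marks [PartialOrder F] (β : G → F ≃⋆ₐ[ℂ] F) (θ : ℝ) where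
  t : Set F
  countable : t.Countable
  image_eq : ∀ g, β g '' t = t
  S1 : Cl t
  S' : Cl t
  E : Cl t
  X : Cl t
  U : Cl t
  R0 : Cl t
  C0 : Cl t
  A : Cl t
  B : Cl t
  fa : Cl t
  fb : Cl t
  fc : Cl t
  fix : ∀ g, ∀ u ∈ ({S1, S', E, C0, A, B} : Set (Cl t)), β g u = u
  pos : ∀ u ∈ ({S1, S', U, C0, A, B} : Set (Cl t)), 0 ≤ (u : F) ∧ (u : F) ≤ 1
  pos_R : 0 ≤ (R0 : F)
  comm : Commute S1 S'
  S'_S1 : S' * S1 = S1
  S'_X : S' * X = 0
  X_S' : X * S' = X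
  E_X : E * X = X
  X_X : star X * X * S1 = S1
  norm_X : ‖X‖ ≤ 1
  U_S1 : U * S1 = U
  R_U : R0 * U = R0
  S'_C : S' * C0 = 0
  E_C : E * C0 = 0
  C_E : C0 * E = 0
  A_B : A * B = 0
  A_fa : A * fa = fa
  B_fa : B * fa = 0
  A_fb : A * fb = 0
  B_fb : B * fb = fb
  A_fc : A * fc = 0
  B_fc : B * fc = 0
  full_f : ∀ f ∈ ({fa, fb, fc} : Set (Cl t)),
    ∃ (K : ℕ) (w : Fin K → Cl t), ∑ i, star (w i) * (star f * f) * w i = 1
  dim_S' : ∀ d : Dim (Cl t), d.d (S' : F) ≤ 1 / 8 + θ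
  dim_U : ∀ d : Dim (Cl t), d.d ((U * U : Cl t) : F) ≤ 1 / 8 + θ
  dim_R : ∀ d : Dim (Cl t), 1 / 8 - θ ≤ d.d ((R0 * R0 : Cl t) : F)
  full_R : FullW (Cl t) ((R0 * R0 : Cl t) : F)
  full_C : FullW (Cl t) ((C0 * C0 : Cl t) : F)
  trace_AB : ∀ τ : Cl t →ₗ[ℂ] ℂ, IsTrace (Cl t) τ →
    |(τ A).re - 7 / 64| ≤ 2 * θ ∧ |(τ B).re - 7 / 64| ≤ 2 * θ

/-- A product of full squares in commuting banks is full. -/
theorem pair_full {t T : Set F} (φ φ' : Cl t →⋆ₐ[ℂ] Cl T) (hc : ∀ x y, Commute (φ x) (φ' y))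
    {a b : Cl t} (hb : IsSelfAdjoint b) (hA : FullW (Cl t) ((star a * a : Cl t) : F))
    (hB : FullW (Cl t) ((b * b : Cl t) : F)) :
    ∃ (K : ℕ) (w : Fin K → Cl T),
      ∑ i, star (w i) * (star (φ a * φ' b) * (φ a * φ' b)) * w i = 1 := by
  have e : star (φ a * φ' b) * (φ a * φ' b) = φ (star a * a) * φ' (b * b) := by
    rw [star_mul, ← map_star φ', hb.star_eq, map_mul φ, map_mul φ', map_star φ]
    calc φ' b * star (φ a) * (φ a * φ' b) = φ' b * (star (φ a) * φ a) * φ' b := by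
          simp only [mul_assoc]
      _ = star (φ a) * φ a * (φ' b * φ' b) := by
          rw [← map_star φ, ← map_mul φ, ← (hc _ b).eq, mul_assoc]
  let ψ := (Cl T).subtype.comp φ
  let ψ' := (Cl T).subtype.comp φ'
  obtain ⟨K, y, hy, hsum⟩ := hA
  have h := FullW.mul (B := Cl T) (a := ψ (star a * a)) (b := ψ' (b * b))
    (hB.map ψ' fun x => (φ' x).2)
    ⟨K, fun i => ψ ⟨y i, hy i⟩, fun i => (φ _).2, by
      have h2 : ∑ i, star (⟨y i, hy i⟩ : Cl t) * (star a * a) * ⟨y i, hy i⟩ = 1 :=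
        Subtype.ext (by simpa using hsum)
      have := congrArg ψ h2
      simpa [← map_star] using this,
      fun i => congrArg Subtype.val (hc ⟨y i, hy i⟩ (b * b)).eq⟩
  obtain ⟨K', w, hw, h1⟩ := h
  refine ⟨K', fun i => ⟨w i, hw i⟩, ?_⟩
  rw [e]
  exact Subtype.ext (by simpa [ψ, ψ'] using h1)

/-- The gens of a copy. -/
def gens {t : Set F} {ι : Type} (φ : ι → Cl t →⋆ₐ[ℂ] F) : Set F :=
  ⋃ i, φ i '' {a : Cl t | (a : F) ∈ t}

theorem countable_gens {t : Set F} {ι : Type} [Countable ι] (φ : ι → Cl t →⋆ₐ[ℂ] F)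
    (ht : t.Countable) : (gens φ).Countable :=
  Set.countable_iUnion fun _ => (ht.preimage Subtype.coe_injective).image _

theorem mem_gens {t S : Set F} {ι : Type} (φ : ι → Cl t →⋆ₐ[ℂ] F) (h : gens φ ⊆ S) (i : ι)
    (x : Cl t) : φ i x ∈ Cl S :=
  Amen.Square.map_mem_Cl (φ i)
    (fun a ha => subset_Cl _ (h (Set.mem_iUnion.2 ⟨i, a, ha, rfl⟩))) x

variable [PartialOrder F] [StarOrderedRing F] [Group G] [Countable G] {β : G → F ≃⋆ₐ[ℂ] F}
  {S : Finset G}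

/-- Letters, comparison and two copies give what a block needs. -/
theorem exists_marks (hC : CompareTarget) (hS : Setting β S) {θ : ℝ} (hθ : θ ≤ 1 / 32)
    (Le : Letters' β (1 / 8) θ) : Nonempty (Marks β θ) := by
  have hpos : ∀ u ∈ ({Le.s, Le.s', Le.m, Le.e, Le.c} : Set F), 0 ≤ u ∧ u ≤ 1 := fun u hu =>
    ⟨Coin.sqLe_iff.1 (Le.pos u hu).1, Coin.sqLe_iff.1 (Le.pos u hu).2⟩
  obtain ⟨hs0, hs1⟩ := hpos Le.s (by simp)
  obtain ⟨hs'0, hs'1⟩ := hpos Le.s' (by simp)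
  obtain ⟨hm0, -⟩ := hpos Le.m (by simp)
  obtain ⟨he0, -⟩ := hpos Le.e (by simp)
  obtain ⟨hc0, hc1⟩ := hpos Le.c (by simp)
  have hsa := hs0.isSelfAdjoint
  have hs'a := hs'0.isSelfAdjoint
  obtain ⟨x0, η0, hη0, hx0, hx0m⟩ := hC F (Setting.hasCopies hS) hS.central hS.noChar Le.s' Le.m
    (1 / 8 + θ) (1 / 2 - θ) (1 / 2) Le.m_full Le.s'_le Le.m_ge (by linarith) (by norm_num)
  obtain ⟨Sp, hSp, -, hSpd⟩ := Le.s'_le
  obtain ⟨Sq, hSq, -, hSqd⟩ := Le.s_ge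
  obtain ⟨K1, y1, hy1⟩ := Le.s_full
  obtain ⟨K2, y2, hy2⟩ := fullPos_sq hc0.isSelfAdjoint Le.c_full
  obtain ⟨hrr, hrs⟩ := root_cut Le.s
  obtain ⟨hes, -⟩ := unit_mul_bump hm0.isSelfAdjoint he0.isSelfAdjoint
    (Le.comm Le.m (by simp) Le.e (by simp)) Le.e_m hη0
  have hsb : ∀ η : ℝ, 0 < η → Le.s' * bump η Le.s = bump η Le.s ∧
      bump η Le.s * Le.s' = bump η Le.s := fun η hη => unit_mul_bump hsa hs'a
    (Le.comm Le.s (by simp) Le.s' (by simp)) Le.s'_s hη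
  have hbb : ∀ η η' : ℝ, 0 < η → η' ≤ η / 2 → 0 < η' →
      bump η Le.s * bump η' Le.s = bump η Le.s := fun η η' hη hle hη' => by
    rw [bump, bump, ← cfc_mul _ _ Le.s (continuous_bump η).continuousOn
      (continuous_bump η').continuousOn]
    refine cfc_congr fun x _ => ?_
    rcases le_total x (η / 2) with hx | hx
    · rw [Amen.Square.bump_apply_zero hη hx, zero_mul]
    · rw [Amen.Square.bump_apply_one hη' (hle.trans hx), mul_one]
  set r := bump (3 / 16) Le.s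
  set S1 := bump (3 / 8) Le.s
  set U := bump (3 / 4) Le.s
  have hrS : r * S1 = S1 := by
    rw [show r * S1 = S1 * r from ((Commute.refl Le.s).cfc_real _).symm.cfc_real _ |>.eq]
    exact hbb _ _ (by norm_num) (by norm_num) (by norm_num)
  obtain ⟨hxs, hxn⟩ := scale_x hs'0 hs'1 (hsb (3 / 8) (by norm_num)).1 hx0
  have hex : Le.e * x0 = x0 := by rw [← hx0m, ← mul_assoc, hes, hx0m]
  have hs'x : Le.s' * x0 = 0 := by rw [← hex, ← mul_assoc, Le.s'_e, zero_mul]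
  set X := Real.sqrt 2 • x0 * r
  have hXS : X * Le.s' = X := by rw [mul_assoc, (hsb _ (by norm_num)).2]
  have hsXX : Le.s' * X = 0 := by
    rw [← mul_assoc, mul_smul_comm, hs'x, smul_zero, zero_mul]
  have heX : Le.e * X = X := by rw [← mul_assoc, mul_smul_comm, hex]
  have hr : star r = r := (Amen.Square.isSelfAdjoint_bump _ _).star_eq
  have hXX : star X * X * S1 = S1 := by
    calc star X * X * S1 = r * (star (Real.sqrt 2 • x0) * (Real.sqrt 2 • x0) * (r * S1)) := by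
          rw [show star X = r * star (Real.sqrt 2 • x0) by rw [star_mul, hr]]
          simp only [X, mul_assoc]
      _ = S1 := by rw [hrS, hxs, hrS]
  have hXn : ‖X‖ ≤ 1 := by
    refine (norm_mul_le _ _).trans (mul_le_one₀ hxn (norm_nonneg _) ?_)
    exact (CStarAlgebra.norm_le_one_iff_of_nonneg _ (bump_nonneg _ _)).2 (bump_le_one _ _)
  set R0 := cfc Real.sqrt (cut (3 / 4) Le.s)
  -- the first bank
  set A0 := (({Le.s, Le.s', Le.m, Le.e, Le.c, x0} : Set F) ∪ Sp ∪ Sq ∪ Set.range y1 ∪ Set.range y2)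
  have hA : A0.Countable := (((((Set.toFinite _).countable.union hSp).union hSq).union
    (Set.countable_range y1)).union (Set.countable_range y2))
  set t₁ := orbitAll β A0
  have hsub := subset_orbitAll (β := β) hS.mul A0
  have hmem : ∀ u ∈ ({Le.s, Le.s', Le.m, Le.e, Le.c, x0} : Set F), u ∈ Cl t₁ := fun u hu =>
    subset_Cl _ (hsub (Or.inl (Or.inl (Or.inl (Or.inl hu)))))
  have hbm : ∀ η, bump η Le.s ∈ Cl t₁ := fun η =>
    Coin.cfc_mem' (isClosed_Cl _) (hmem _ (Or.inl rfl)) _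
  have hRm : R0 ∈ Cl t₁ := Coin.cfc_mem' (isClosed_Cl _)
    (Coin.cfc_mem' (isClosed_Cl _) (hmem _ (Or.inl rfl)) _) _
  obtain ⟨κ⟩ := exists_copies_fin hS hA 2
  let u₁ : Cl t₁ := ⟨S1, hbm _⟩
  let w₁ : Cl t₁ := ⟨Le.s', hmem _ (by simp)⟩
  let v₁ : Cl t₁ := ⟨R0, hRm⟩
  let c₁ : Cl t₁ := ⟨Le.c, hmem _ (by simp)⟩
  -- the final bank
  set A1 := t₁ ∪ gens κ.hom
  have hA1 : A1.Countable := (countable_orbitAll hA).union (countable_gens κ.hom (countable_orbitAll hA))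
  set t := orbitAll β A1
  have hA1t : A1 ⊆ t := subset_orbitAll hS.mul A1
  have ht1 : Cl t₁ ≤ Cl t := Cl_mono (Set.subset_union_left.trans hA1t)
  let φ : Fin 2 → Cl t₁ →⋆ₐ[ℂ] Cl t := fun i => (κ.hom i).codRestrict (Cl t)
    (mem_gens κ.hom (Set.subset_union_right.trans hA1t) i)
  have hφ : ∀ i j, i ≠ j → ∀ x y, Commute (φ i x) (φ j y) := fun i j h x y =>
    Subtype.ext (κ.comm i j h x y).eq
  have hφf : ∀ g i (x : Cl t₁), β g x = x → β g (φ i x) = φ i x := fun g i x => κ.equiv i g x x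
  have hφpos : ∀ i (x : Cl t₁), 0 ≤ (x : F) → (x : F) ≤ 1 → 0 ≤ (φ i x : F) ∧ (φ i x : F) ≤ 1 := by
    intro i x h0 h1
    refine ⟨Amen.Square.map_nonneg' (κ.hom i) h0, sub_nonneg.1 ?_⟩
    have := Amen.Square.map_nonneg' (κ.hom i) (u := 1 - x) (by simpa using h1)
    rwa [map_sub, map_one] at this
  have hu₁ : 0 ≤ (u₁ : F) ∧ (u₁ : F) ≤ 1 := ⟨bump_nonneg _ _, bump_le_one _ _⟩
  have hw₁ : 0 ≤ (w₁ : F) ∧ (w₁ : F) ≤ 1 := ⟨hs'0, hs'1⟩
  have hvv : ((v₁ * v₁ : Cl t₁) : F) = cut (3 / 4) Le.s := hrr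
  have hv₁ : 0 ≤ ((v₁ * v₁ : Cl t₁) : F) := hvv ▸ Coin.cut_nonneg' _ _
  have hUS : U * S1 = U := hbb _ _ (by norm_num) (by norm_num) (by norm_num)
  have hvu : v₁ * u₁ = v₁ := Subtype.ext (by
    show R0 * S1 = R0
    rw [← hrs, mul_assoc, hUS])
  have huv : u₁ * v₁ = v₁ := by
    have := congrArg star hvu
    rw [star_mul] at this
    rwa [show star u₁ = u₁ from Subtype.ext hu₁.1.isSelfAdjoint.star_eq,
      show star v₁ = v₁ from Subtype.ext (cfc_predicate Real.sqrt (cut (3 / 4) Le.s)).star_eq] at this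
  have hwu : w₁ * u₁ = u₁ := Subtype.ext (hsb _ (by norm_num)).1
  have hwv : w₁ * v₁ = v₁ := by rw [← huv, ← mul_assoc, hwu]
  have huc : u₁ * c₁ = 0 := Subtype.ext (by
    show bump (3 / 8) Le.s * Le.c = 0
    rw [← (hsb (3 / 8) (by norm_num)).2, mul_assoc, Le.s'_c, mul_zero])
  have hwc : w₁ * c₁ = 0 := Subtype.ext Le.s'_c
  have hu1w : u₁ * (1 - w₁) = 0 ∧ (1 - w₁) * u₁ = 0 := by
    refine ⟨?_, by rw [sub_mul, one_mul, hwu, sub_self]⟩
    rw [mul_sub, mul_one, sub_eq_zero]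
    exact (Subtype.ext (hsb _ (by norm_num)).2).symm
  have h1wc : (1 - w₁) * c₁ = c₁ := by rw [sub_mul, one_mul, hwc, sub_zero]
  have h1wv : (1 - w₁) * v₁ = 0 := by rw [sub_mul, one_mul, hwv, sub_self]
  have hpd : ∀ d : Dim (Cl t₁), 1 / 8 - θ ≤ d.d ((v₁ * v₁ : Cl t₁) : F) := fun d => by
    rw [hvv]
    exact hSqd (d.restrict (Cl_mono fun u hu => hsub (Or.inl (Or.inl (Or.inr hu)))))
  have hwd : ∀ d : Dim (Cl t₁), d.d (w₁ : F) ≤ 1 / 8 + θ := fun d =>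
    hSpd (d.restrict (Cl_mono fun u hu => hsub (Or.inl (Or.inl (Or.inl (Or.inr hu))))))
  have hsd : ∀ (x : F), 0 ≤ x → x ≤ 1 → x ∈ Cl t₁ → Le.s' * x = x → x * Le.s' = x →
      ∀ d : Dim (Cl t₁), d.d x ≤ 1 / 8 + θ := fun x h0 h1 hm h2 h3 d => by
    refine (d.mono_sqLe (Amen.Square.posIn hm h0) (Amen.Square.posIn w₁.2 hs'0)
      (Coin.sqLe_iff.2 ?_)).trans (hwd d)
    calc x = Le.s' * x * Le.s' := by rw [h2, h3]
      _ ≤ Le.s' * 1 * Le.s' := IsSelfAdjoint.conjugate_le_conjugate h1 hs'a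
      _ ≤ Le.s' := by rw [mul_one]; exact commute_mul_le hs'0 hs'1 (Commute.refl _)
  have hud : ∀ d : Dim (Cl t₁), d.d (u₁ : F) ≤ 1 / 8 + θ :=
    hsd S1 hu₁.1 hu₁.2 u₁.2 (hsb _ (by norm_num)).1 (hsb _ (by norm_num)).2
  have htr : ∀ τ : Cl t →ₗ[ℂ] ℂ, IsTrace (Cl t) τ → ∀ i j, i ≠ j →
      |(τ (φ i u₁ * φ j (1 - w₁))).re - 7 / 64| ≤ 2 * θ := fun τ hτ i j hij => by
    obtain ⟨h1, h2⟩ := trace_pair (φ i) (φ j) (hφ i j hij) hτ hu₁ hw₁ hv₁
      (by rw [← mul_assoc, huv]) (by rw [← mul_assoc, hwv]) (by linarith) hpd hud hwd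
    have h0 : 0 ≤ θ := by
      by_contra h0
      nlinarith [h1.trans h2]
    rw [abs_le]
    constructor <;> nlinarith
  have hfullA : FullW (Cl t₁) ((v₁ * v₁ : Cl t₁) : F) :=
    hvv ▸ fullW_of_subset (fun u hu => hsub (Or.inl (Or.inr hu))) hy1
  have hfullC : FullW (Cl t₁) ((c₁ * c₁ : Cl t₁) : F) :=
    fullW_of_subset (fun u hu => hsub (Or.inr hu)) hy2
  have hv₁s : star v₁ = v₁ := Subtype.ext (cfc_predicate Real.sqrt (cut (3 / 4) Le.s)).star_eq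
  have hc₁s : star c₁ = c₁ := Subtype.ext hc0.isSelfAdjoint.star_eq
  have h01 : (0 : Fin 2) ≠ 1 := by decide
  have hmul : ∀ i j, i ≠ j → ∀ a b c d : Cl t₁,
      φ i a * φ j b * (φ i c * φ j d) = φ i (a * c) * φ j (b * d) := fun i j h a b c d => by
    rw [map_mul, map_mul, mul_assoc (φ i a), ← mul_assoc (φ j b), ← (hφ i j h c b).eq]
    simp only [mul_assoc]
  have hswap : ∀ a b : Cl t₁, φ 1 a * φ 0 b = φ 0 b * φ 1 a := fun a b =>
    (hφ 1 0 h01.symm a b).eq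
  refine ⟨{
    t := t
    countable := countable_orbitAll hA1
    image_eq := image_orbitAll hS.mul A1
    S1 := ⟨S1, ht1 (hbm _)⟩
    S' := ⟨Le.s', ht1 w₁.2⟩
    E := ⟨Le.e, ht1 (hmem _ (by simp))⟩
    X := ⟨X, ht1 (mul_mem (Coin.smul_mem' (hmem _ (by simp)) _) (hbm _))⟩
    U := ⟨U, ht1 (hbm _)⟩
    R0 := ⟨R0, ht1 hRm⟩
    C0 := ⟨Le.c, ht1 c₁.2⟩
    A := φ 0 u₁ * φ 1 (1 - w₁)
    B := φ 0 (1 - w₁) * φ 1 u₁
    fa := φ 0 v₁ * φ 1 c₁
    fb := φ 0 c₁ * φ 1 v₁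
    fc := φ 0 c₁ * φ 1 c₁
    fix := fun g u hu => ?_
    pos := fun u hu => ?_
    pos_R := cfc_nonneg fun _ _ => Real.sqrt_nonneg _
    comm := Subtype.ext ((hsb _ (by norm_num)).2.trans (hsb _ (by norm_num)).1.symm)
    S'_S1 := Subtype.ext (hsb _ (by norm_num)).1
    S'_X := Subtype.ext hsXX
    X_S' := Subtype.ext hXS
    E_X := Subtype.ext heX
    X_X := Subtype.ext hXX
    norm_X := hXn
    U_S1 := Subtype.ext hUS
    R_U := Subtype.ext hrs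
    S'_C := Subtype.ext Le.s'_c
    E_C := Subtype.ext Le.e_c
    C_E := Subtype.ext (show Le.c * Le.e = 0 by
      rw [(Le.comm Le.c (by simp) Le.e (by simp)).eq, Le.e_c])
    A_B := by rw [hmul 0 1 h01, hu1w.1, map_zero, zero_mul]
    A_fa := by rw [hmul 0 1 h01, huv, h1wc]
    B_fa := by rw [hmul 0 1 h01, h1wv, map_zero, zero_mul]
    A_fb := by rw [hmul 0 1 h01, huc, map_zero, zero_mul]
    B_fb := by rw [hmul 0 1 h01, huv, h1wc]
    A_fc := by rw [hmul 0 1 h01, huc, map_zero, zero_mul]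
    B_fc := by rw [hmul 0 1 h01, huc, map_zero, mul_zero]
    full_f := fun f hf => ?_
    dim_S' := fun d => hwd (d.restrict ht1)
    dim_U := fun d => by
      have h0 : (0 : F) ≤ U * U := (Amen.Square.isSelfAdjoint_bump _ _).mul_self_nonneg
      obtain ⟨e1, e2⟩ := hsb (3 / 4) (by norm_num)
      exact hsd _ h0 ((commute_mul_le (bump_nonneg _ _) (bump_le_one _ _) (Commute.refl _)).trans
        (bump_le_one _ _)) (mul_mem (hbm _) (hbm _)) (by rw [← mul_assoc, e1])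
        (by rw [mul_assoc, e2]) (d.restrict ht1)
    dim_R := fun d => hpd (d.restrict ht1)
    full_R := hfullA.imp fun _ => Exists.imp fun _ h => ⟨fun i => ht1 (h.1 i), h.2⟩
    full_C := hfullC.imp fun _ => Exists.imp fun _ h => ⟨fun i => ht1 (h.1 i), h.2⟩
    trace_AB := fun τ hτ => ⟨htr τ hτ 0 1 h01, by
      rw [← hswap]; exact htr τ hτ 1 0 h01.symm⟩ }⟩
  · rcases hu with rfl | rfl | rfl | rfl | rfl | rfl
    · exact fixed_cfc _ (continuous_bump _) hsa (Le.fix _ (by simp) g)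
    · exact Le.fix _ (by simp) g
    · exact Le.fix _ (by simp) g
    · exact Le.fix _ (by simp) g
    all_goals
      have h1 : ∀ i, β g (φ i u₁) = φ i u₁ := fun i =>
        hφf g i u₁ (fixed_cfc _ (continuous_bump _) hsa (Le.fix _ (by simp) g))
      have h2 : ∀ i, β g (φ i (1 - w₁)) = φ i (1 - w₁) := fun i =>
        hφf g i (1 - w₁) (show β g (1 - Le.s') = 1 - Le.s' by
          rw [map_sub, map_one, Le.fix Le.s' (by simp) g])
      show β g ((_ : F) * _) = _ * _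
      rw [map_mul, h1, h2]
  · have hpp : ∀ x y : Cl t₁, (0 ≤ (x : F) ∧ (x : F) ≤ 1) → (0 ≤ (y : F) ∧ (y : F) ≤ 1) →
        0 ≤ ((φ 0 x * φ 1 y : Cl t) : F) ∧ ((φ 0 x * φ 1 y : Cl t) : F) ≤ 1 := fun x y hx hy => by
      have hc : Commute (φ 0 x : F) (φ 1 y : F) := κ.comm 0 1 h01 x y
      obtain ⟨a0, a1⟩ := hφpos 0 x hx.1 hx.2
      obtain ⟨b0, b1⟩ := hφpos 1 y hy.1 hy.2
      exact ⟨hc.mul_nonneg a0 b0, (commute_mul_le b0 a1 hc).trans b1⟩
    have h1w : 0 ≤ ((1 - w₁ : Cl t₁) : F) ∧ ((1 - w₁ : Cl t₁) : F) ≤ 1 :=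
      ⟨sub_nonneg.2 hs'1, sub_le_self _ hs'0⟩
    rcases hu with rfl | rfl | rfl | rfl | rfl | rfl
    · exact hu₁
    · exact hw₁
    · exact ⟨bump_nonneg _ _, bump_le_one _ _⟩
    · exact ⟨hc0, hc1⟩
    all_goals
      first
      | exact hpp _ _ hu₁ h1w
      | exact hpp _ _ h1w hu₁
  · have e : ((star v₁ * v₁ : Cl t₁) : F) = ((v₁ * v₁ : Cl t₁) : F) := by rw [hv₁s]
    have e' : ((star c₁ * c₁ : Cl t₁) : F) = ((c₁ * c₁ : Cl t₁) : F) := by rw [hc₁s]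
    rcases hf with rfl | rfl | rfl
    · exact pair_full (φ 0) (φ 1) (hφ 0 1 h01) hc₁s (e ▸ hfullA) hfullC
    · exact pair_full (φ 0) (φ 1) (hφ 0 1 h01) hv₁s (e' ▸ hfullC) hfullA
    · exact pair_full (φ 0) (φ 1) (hφ 0 1 h01) hc₁s (e' ▸ hfullC) hfullC

end

end Vale.Agent.P095.All.Square
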