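import Vale.Agent.P095.All.Coin.Basic
import Vale.Agent.P095.Amen.Compare.Core
import Vale.Agent.P095.Amen.Square.Calc

/-!
# P095 Square: bounds by states of the Cuntz semigroup are bounds by traces
-/

namespace Vale.Agent.P095.All.Square

open Vale.Agent.P101.KR Vale.Agent.P095.Amen Finset
open scoped CStarAlgebra

noncomputable section

section

variable {B : Type} [CStarAlgebra B] [PartialOrder B] [StarOrderedRing B]

/-- Subequivalence of contractions against elements with units passes to traces of the units. -/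
theorem re_sum_le_of_sub {τ : B →ₗ[ℂ] ℂ} (hτ : Coin.PosTr τ) (h1 : (τ 1).re = 1) {n m : ℕ}
    {a : Fin n → B} {b w : Fin m → B} (ha : ∀ i, 0 ≤ a i ∧ a i ≤ 1) (hb : ∀ j, 0 ≤ b j)
    (hw : ∀ j, 0 ≤ w j ∧ w j ≤ 1) (hwb : ∀ j, w j * b j = b j) (h : Cuntz.Sub a b) :
    ∑ i, (τ (a i)).re ≤ ∑ j, (τ (w j)).re := by
  have key : ∀ ε : ℝ, 0 < ε → ε ≤ 1 →
      ∑ i, (τ (a i)).re ≤ ∑ j, (τ (w j)).re + ε * (n + 4 * n * n * m) := by
    intro ε hε hε1
    obtain ⟨x, hx⟩ := h ε hε
    set y : Fin m → Fin n → B := fun j i => CFC.sqrt (b j) * x j i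
    have hs : ∀ j, star (CFC.sqrt (b j)) = CFC.sqrt (b j) := fun j =>
      (CFC.sqrt_nonneg (b j)).isSelfAdjoint.star_eq
    have hyy : ∀ i k, ‖(∑ j, star (y j i) * y j k) - if i = k then a i else 0‖ ≤ ε := fun i k => by
      have e : (∑ j, star (y j i) * y j k) = ∑ j, star (x j i) * b j * x j k := by
        refine sum_congr rfl fun j _ => ?_
        show star (CFC.sqrt (b j) * x j i) * (CFC.sqrt (b j) * x j k) = _
        conv_rhs => rw [← CFC.sqrt_mul_sqrt_self (b j) (hb j)]
        rw [star_mul, hs]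
        simp only [mul_assoc]
      rw [e]
      convert hx i k
    have hy2 : ∀ j i, ‖y j i‖ ≤ 2 := fun j i => by
      have h2 := CStarAlgebra.norm_le_norm_of_nonneg_of_le (star_mul_self_nonneg (y j i))
        (single_le_sum (f := fun j => star (y j i) * y j i) (fun j _ => star_mul_self_nonneg _)
          (mem_univ j))
      have h3 := norm_sub_norm_le (∑ j, star (y j i) * y j i) (a i)
      have h4 := hyy i i
      rw [if_pos rfl] at h4
      have h5 : ‖a i‖ ≤ 1 := (CStarAlgebra.norm_le_one_iff_of_nonneg _ (ha i).1).2 (ha i).2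
      rw [CStarRing.norm_star_mul_self] at h2
      nlinarith [norm_nonneg (y j i)]
    set G : Fin m → B := fun j => ∑ i, y j i * star (y j i)
    have hGsa : ∀ j, IsSelfAdjoint (G j) := fun j =>
      isSelfAdjoint_sum _ fun i _ => IsSelfAdjoint.mul_star_self _
    set e : ℝ := ε * (4 * n * n)
    have hG : ∀ j, G j ≤ (1 + e) • (1 : B) := fun j => by
      set c : Fin m → B := fun l => ∑ i, y l i * star (y j i)
      have h2 : G j * G j ≤ ∑ l, star (c l) * c l := by
        refine le_of_eq_of_le ?_ (single_le_sum (f := fun l => star (c l) * c l)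
          (fun l _ => star_mul_self_nonneg _) (mem_univ j))
        show G j * G j = star (G j) * G j
        rw [(hGsa j).star_eq]
      set D := ∑ i, y j i * a i * star (y j i)
      have hD : D ≤ G j := sum_le_sum fun i _ =>
        (star_right_conjugate_le_conjugate (ha i).2 (y j i)).trans_eq (by rw [mul_one])
      have he : (∑ l, star (c l) * c l) - D = ∑ i, ∑ k, y j i *
          ((∑ l, star (y l i) * y l k) - if i = k then a i else 0) * star (y j k) := by
        simp only [mul_sub, sub_mul, sum_sub_distrib]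
        congr 1
        · simp only [c, star_sum, star_mul, star_star, sum_mul, mul_sum, mul_assoc]
          rw [sum_comm, eq_comm, sum_comm]
          refine sum_congr rfl fun i _ => sum_comm
        · simp [D]
      have hR : (∑ l, star (c l) * c l) - D ≤ e • (1 : B) := by
        have hsa : IsSelfAdjoint ((∑ l, star (c l) * c l) - D) :=
          (isSelfAdjoint_sum _ fun l _ => IsSelfAdjoint.star_mul_self _).sub
            (isSelfAdjoint_sum _ fun i _ => (IsSelfAdjoint.of_nonneg (ha i).1).conjugate _)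
        refine hsa.le_algebraMap_norm_self.trans ?_
        rw [Algebra.algebraMap_eq_smul_one]
        refine smul_le_smul_of_nonneg_right ?_ zero_le_one
        rw [he]
        refine (norm_sum_le _ _).trans ((sum_le_sum fun i _ => (norm_sum_le _ _).trans
          (sum_le_sum fun k _ => (norm_mul₃_le ..).trans
            (mul_le_mul (mul_le_mul (hy2 j i) (hyy i k) (norm_nonneg _) zero_le_two)
              ((norm_star _).trans_le (hy2 j k)) (norm_nonneg _) (by positivity)))).trans_eq ?_)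
        simp [e]; ring
      have h3 : G j * G j ≤ G j + e • (1 : B) :=
        h2.trans (le_of_eq_of_le (add_sub_cancel D _).symm (add_le_add hD hR))
      have h4 := ((hGsa j).sub (IsSelfAdjoint.one B)).mul_self_nonneg
      have h5 : G j + G j ≤ G j * G j + 1 := by
        rw [← sub_nonneg]
        refine h4.trans_eq ?_
        noncomm_ring
      have h6 : G j + G j ≤ (1 + e) • (1 : B) + G j :=
        (h5.trans (add_le_add h3 le_rfl)).trans_eq (by rw [add_smul, one_smul]; abel)
      exact le_of_add_le_add_right h6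
    have hτw : ∀ j, (τ (G j)).re ≤ (τ (w j)).re + e := fun j => by
      have hsw := (IsSelfAdjoint.of_nonneg (hw j).1).star_eq
      have hwy : ∀ i, w j * y j i = y j i := fun i => by
        have h0 : (1 - w j) * CFC.sqrt (b j) = 0 := by
          refine CStarRing.mul_star_self_eq_zero_iff _ |>.1 ?_
          rw [star_mul, hs, mul_assoc, ← mul_assoc (CFC.sqrt (b j)),
            CFC.sqrt_mul_sqrt_self (b j) (hb j), ← mul_assoc, sub_mul 1, one_mul, hwb, sub_self,
            zero_mul]
        rw [sub_mul, one_mul, sub_eq_zero] at h0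
        show w j * (CFC.sqrt (b j) * x j i) = _
        rw [← mul_assoc, ← h0]
      have hwG : star (w j) * G j * w j = G j := by
        simp only [hsw, G, mul_sum, sum_mul]
        refine sum_congr rfl fun i _ => ?_
        rw [← mul_assoc, hwy, mul_assoc]
        conv_lhs => enter [2]; rw [← hsw, ← star_mul, hwy]
      have h2 := hτ.mono (star_left_conjugate_le_conjugate (hG j) (w j))
      rw [hwG, hsw, mul_smul_comm, mul_one, smul_mul_assoc, Coin.smul_re] at h2
      have h3 := hτ.mono (Amen.Square.commute_mul_le (hw j).1 (hw j).2 (Commute.refl _))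
      have h4 := hτ.mono (hw j).2
      rw [h1] at h4
      nlinarith [mul_le_mul_of_nonneg_left h3 (show (0 : ℝ) ≤ 1 + e by positivity),
        mul_le_mul_of_nonneg_left h4 (show (0 : ℝ) ≤ e by positivity)]
    have hτa : ∀ i, (τ (a i)).re ≤ (τ (∑ j, star (y j i) * y j i)).re + ε := fun i => by
      have h2 := hτ.abs_re_le ((isSelfAdjoint_sum (univ : Finset (Fin m)) fun j _ => IsSelfAdjoint.star_mul_self
        (y j i)).sub (IsSelfAdjoint.of_nonneg (ha i).1))
      have h4 := hyy i i
      rw [if_pos rfl] at h4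
      rw [h1, mul_one, map_sub, Complex.sub_re] at h2
      have h5 := (abs_le.1 h2).1
      linarith
    calc ∑ i, (τ (a i)).re ≤ ∑ i, ((τ (∑ j, star (y j i) * y j i)).re + ε) :=
          sum_le_sum fun i _ => hτa i
      _ = (∑ j, (τ (G j)).re) + n * ε := by
          simp only [sum_add_distrib, map_sum, Complex.re_sum, G]
          rw [sum_comm]
          simp [hτ.comm (star _)]
      _ ≤ (∑ j, ((τ (w j)).re + e)) + n * ε := add_le_add (sum_le_sum fun j _ => hτw j) le_rfl
      _ = _ := by simp [sum_add_distrib, e]; ring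
  refine le_of_forall_pos_le_add fun δ hδ => ?_
  have hK : (0 : ℝ) ≤ n + 4 * n * n * m := by positivity
  obtain ⟨hε1, hεδ⟩ : min 1 (δ / (n + 4 * n * n * m + 1)) ≤ (1 : ℝ) ∧ _ := ⟨min_le_left _ _, min_le_right (1 : ℝ) (δ / (n + 4 * n * n * m + 1))⟩
  refine (key _ (lt_min one_pos (by positivity)) hε1).trans (add_le_add le_rfl ?_)
  refine (mul_le_mul_of_nonneg_right hεδ hK).trans ?_
  rw [div_mul_eq_mul_div, div_le_iff₀ (by positivity)]
  exact mul_le_mul_of_nonneg_left (by linarith) hδ.le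

end

variable {F : Type} [CStarAlgebra F] {s : Set F}

theorem nonneg_sub [PartialOrder (Cl s)] [StarOrderedRing (Cl s)] {u : Cl s}
    (h : PosIn (Cl s) (u : F)) : 0 ≤ u := by
  obtain ⟨a, ha, e⟩ := h.exists_coe
  rwa [← Subtype.ext e]

theorem posTr {τ : Cl s →ₗ[ℂ] ℂ} (hτ : IsTrace (Cl s) τ) : Coin.PosTr τ where
  nonneg x := Complex.nonneg_iff.2 ⟨hτ.nonneg x, (hτ.real x).symm⟩
  comm := hτ.comm

/-- The value of a state at a positive element. -/
theorem dimOfState_apply [PartialOrder (Cl s)] [StarOrderedRing (Cl s)]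
    (f : posFamilies (Cl s) → ℝ)
    (hf : IsMonState ⟨Cuntz.single (1 : Cl s), single_mem_posFamilies zero_le_one⟩ f) {c : Cl s}
    (hc : 0 ≤ c) : (dimOfState f hf).d (c : F) = f ⟨Cuntz.single c, single_mem_posFamilies hc⟩ := by
  have h : ∃ x : Cl s, 0 ≤ x ∧ (x : F) = c := ⟨c, hc, rfl⟩
  classical
  show dite _ _ _ = _
  rw [dif_pos h]
  congr 2
  exact congrArg Cuntz.single (Subtype.ext h.choose_spec.2)

/-- A rational between two reals, as a quotient of naturals. -/
theorem exists_nat_btwn {c c' : ℝ} (hc : 0 ≤ c) (h : c < c') :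
    ∃ k m : ℕ, 0 < k ∧ 0 < m ∧ c * m < k ∧ (k : ℝ) ≤ c' * m := by
  obtain ⟨r, h1, h2⟩ := exists_rat_btwn h
  have hr : (0 : ℝ) < r := hc.trans_lt h1
  have hr' : 0 < r := by exact_mod_cast hr
  refine ⟨r.num.toNat, r.den, ?_, r.pos, ?_, ?_⟩
  · exact Int.lt_toNat.2 (by simpa using Rat.num_pos.2 hr')
  all_goals
    have hn : ((r.num.toNat : ℕ) : ℝ) = (r : ℝ) * r.den := by
      rw [← Int.cast_natCast, Int.toNat_of_nonneg (Rat.num_pos.2 hr').le, Rat.cast_def,
        div_mul_cancel₀ _ (by positivity)]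
    rw [hn]
  · exact mul_lt_mul_of_pos_right h1 (by exact_mod_cast r.pos)
  · exact mul_le_mul_of_nonneg_right h2.le (by positivity)

/-- What is small in every state is small in every trace. -/
theorem trace_le_of_dims {τ : Cl s →ₗ[ℂ] ℂ} (hτ : Coin.PosTr τ) (hone : τ 1 = 1) {u : Cl s}
    (h0 : PosIn (Cl s) (u : F)) (h1 : PosIn (Cl s) (1 - (u : F))) {c : ℝ} (h : ∀ d : Dim (Cl s), d.d u ≤ c) : (τ u).re ≤ c := by
  let _ := CStarAlgebra.spectralOrder (Cl s)
  let _ := CStarAlgebra.spectralOrderedRing (Cl s)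
  have hu0 : 0 ≤ u := nonneg_sub h0
  have hu1 : u ≤ 1 := sub_nonneg.1 (nonneg_sub (u := 1 - u) h1)
  refine le_of_forall_pos_le_add fun δ hδ => ?_
  by_cases hc : c < 0
  · -- no states at all, so the unit is null
    have hc0 : (τ u).re ≤ (τ 1).re := hτ.mono hu1
    obtain ⟨M, hM⟩ := succ_nsmul_le_of_states (S := posFamilies (Cl s))
      (fun x y z h => Cuntz.Cu.add_le_add_right' _ _ _ h) (fun x => Cuntz.Cu.zero_le' _)
      (fun x => exists_le_nsmul_one x.2) (u := ⟨Cuntz.single (1 : Cl s),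
        single_mem_posFamilies zero_le_one⟩) (N := 1)
      (v := ⟨Cuntz.single (1 : Cl s), single_mem_posFamilies zero_le_one⟩) (by rw [one_smul])
      (e := ⟨Cuntz.single (1 : Cl s), single_mem_posFamilies zero_le_one⟩) (q := 0) (fun f hf => by
        exfalso
        have := h (dimOfState f hf)
        linarith [Dim.nonneg h0 (dimOfState f hf)])
    have hM' : (M + 1) • Cuntz.single (1 : Cl s) ≤ M • Cuntz.single (1 : Cl s) := hM
    rw [Cuntz.nsmul_cls, Cuntz.nsmul_cls, Cuntz.cls_le_cls] at hM'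
    have := re_sum_le_of_sub hτ (by rw [hone]; rfl) (fun _ => ⟨zero_le_one, le_rfl⟩)
      (fun _ => zero_le_one) (w := fun _ => 1) (fun _ => ⟨zero_le_one, le_rfl⟩)
      (fun _ => one_mul 1) hM'
    simp [hone] at this
    linarith
  obtain ⟨k, m, hk, hm, hlt, hle⟩ := exists_nat_btwn (not_lt.1 hc) (show c < c + δ by linarith)
  obtain ⟨q, hq⟩ := exists_nat_gt (1 / ((k : ℝ) - c * m))
  let e : posFamilies (Cl s) := ⟨Cuntz.single (1 : Cl s), single_mem_posFamilies zero_le_one⟩
  obtain ⟨M, hM⟩ := succ_nsmul_le_of_states (S := posFamilies (Cl s))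
    (fun x y z h => Cuntz.Cu.add_le_add_right' _ _ _ h) (fun x => Cuntz.Cu.zero_le' _)
    (fun x => exists_le_nsmul_one x.2) (u := m • ⟨Cuntz.single u, single_mem_posFamilies hu0⟩)
    (v := k • e) (N := 1) (by
      show Cuntz.single (1 : Cl s) ≤ 1 • k • Cuntz.single (1 : Cl s)
      rw [one_smul, Cuntz.nsmul_cls, Cuntz.cls_le_cls]
      exact .of_injective (fun _ => (⟨0, hk⟩ : Fin k)) (fun _ _ _ => rfl) fun _ => rfl)
    (e := e) (q := q) (fun f hf => by
      let φ := AddMonoidHom.mk' f hf.add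
      show (1 : ℝ) + q * φ (m • _) < q * φ (k • e)
      rw [map_nsmul, map_nsmul, nsmul_eq_mul, nsmul_eq_mul, show φ e = 1 from hf.unit]
      have := h (dimOfState f hf)
      rw [dimOfState_apply f hf hu0] at this
      rw [div_lt_iff₀ (by linarith)] at hq
      have h2 : φ ⟨Cuntz.single u, single_mem_posFamilies hu0⟩ ≤ c := this
      nlinarith [mul_le_mul_of_nonneg_left h2 (show (0 : ℝ) ≤ q * m by positivity)])
  have hM' : (M + 1) • m • Cuntz.single u ≤ M • k • Cuntz.single (1 : Cl s) := hM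
  rw [← mul_smul, ← mul_smul, Cuntz.nsmul_cls, Cuntz.nsmul_cls, Cuntz.cls_le_cls] at hM'
  have h2 := re_sum_le_of_sub hτ (by rw [hone]; rfl) (fun _ => ⟨hu0, hu1⟩)
    (fun _ => zero_le_one) (w := fun _ => 1) (fun _ => ⟨zero_le_one, le_rfl⟩) (fun _ => one_mul 1) hM'
  simp [hone] at h2
  have h3 : (0 : ℝ) < m := Nat.cast_pos.2 hm
  have h4 : 0 ≤ (τ u).re := (hτ.of_nonneg hu0).1
  have h5 : (0 : ℝ) ≤ M := M.cast_nonneg
  by_contra hcon
  rw [not_le] at hcon
  nlinarith [mul_le_mul_of_nonneg_left hle h5,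
    mul_lt_mul_of_pos_left hcon (show (0 : ℝ) < (M + 1) * m by positivity)]

/-- What is large in every state makes its unit large in every trace. -/
theorem le_trace_of_dims {τ : Cl s →ₗ[ℂ] ℂ} (hτ : Coin.PosTr τ) (hone : τ 1 = 1) {v w : Cl s}
    (hv : PosIn (Cl s) (v : F)) (hw0 : PosIn (Cl s) (w : F))
    (hw1 : PosIn (Cl s) (1 - (w : F))) (hwv : w * v = v) {c : ℝ}
    (h : ∀ d : Dim (Cl s), c ≤ d.d v) : c ≤ (τ w).re := by
  let _ := CStarAlgebra.spectralOrder (Cl s)
  let _ := CStarAlgebra.spectralOrderedRing (Cl s)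
  have hv0 : 0 ≤ v := nonneg_sub hv
  have hw : 0 ≤ w ∧ w ≤ 1 := ⟨nonneg_sub hw0, sub_nonneg.1 (nonneg_sub (u := 1 - w) hw1)⟩
  refine le_of_forall_pos_le_add fun δ hδ => ?_
  rcases le_or_gt c δ with hc | hc
  · linarith [(hτ.of_nonneg hw.1).1]
  obtain ⟨k, m, hk, hm, hlt, hle⟩ := exists_nat_btwn (show 0 ≤ c - δ by linarith)
    (show c - δ < c - δ / 2 by linarith)
  have hm0 : (0 : ℝ) < m := Nat.cast_pos.2 hm
  obtain ⟨q, hq⟩ := exists_nat_gt (1 / (c * m - k))
  let e : posFamilies (Cl s) := ⟨Cuntz.single (1 : Cl s), single_mem_posFamilies zero_le_one⟩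
  let V : posFamilies (Cl s) := ⟨Cuntz.single v, single_mem_posFamilies hv0⟩
  obtain ⟨M, hM⟩ := succ_nsmul_le_of_states (S := posFamilies (Cl s))
    (fun x y z h => Cuntz.Cu.add_le_add_right' _ _ _ h) (fun x => Cuntz.Cu.zero_le' _)
    (fun x => exists_le_nsmul_one x.2) (u := (k + 1) • e) (v := m • V + e) (N := 1) (by
      rw [one_smul]
      exact le_of_eq_of_le (zero_add e).symm
        (Cuntz.Cu.add_le_add_right' 0 _ _ (Cuntz.Cu.zero_le' _)))
    (e := e) (q := q) (fun f hf => by
      let φ := AddMonoidHom.mk' f hf.add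
      show (1 : ℝ) + q * φ ((k + 1) • e) < q * φ (m • V + e)
      rw [map_add, map_nsmul, map_nsmul, nsmul_eq_mul, nsmul_eq_mul, show φ e = 1 from hf.unit]
      have := h (dimOfState f hf)
      rw [dimOfState_apply f hf hv0] at this
      rw [div_lt_iff₀ (by nlinarith)] at hq
      have h2 : c ≤ φ V := this
      push_cast
      nlinarith [mul_le_mul_of_nonneg_left h2 (show (0 : ℝ) ≤ q * m by positivity)])
  have hM' : (M + 1) • (k + 1) • Cuntz.single (1 : Cl s) ≤
      M • (m • Cuntz.single v + Cuntz.single (1 : Cl s)) := hM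
  rw [nsmul_add, ← mul_smul, ← mul_smul, Cuntz.nsmul_cls, Cuntz.nsmul_cls, Cuntz.nsmul_cls,
    ← Cuntz.cls_elim, Cuntz.cls_le_cls] at hM'
  have h2 := re_sum_le_of_sub hτ (by rw [hone]; rfl)
    (b := fun i => Sum.elim (fun _ => v) (fun _ => 1) (finSumFinEquiv.symm i))
    (w := fun i => Sum.elim (fun _ => w) (fun _ => 1) (finSumFinEquiv.symm i))
    (fun _ => ⟨zero_le_one, le_rfl⟩)
    (fun i => by rcases finSumFinEquiv.symm i with _ | _ <;> simp [hv0])
    (fun i => by rcases finSumFinEquiv.symm i with _ | _ <;> simp [hw])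
    (fun i => by rcases finSumFinEquiv.symm i with _ | _ <;> simp [hwv])
    (hM'.trans (.of_equiv finSumFinEquiv fun i => by simp))
  rw [Equiv.sum_comp finSumFinEquiv.symm
    (fun i => (τ (Sum.elim (fun _ => w) (fun _ => (1 : Cl s)) i)).re)] at h2
  simp [Fintype.sum_sum_type, hone] at h2
  have h4 : 0 ≤ (τ w).re := (hτ.of_nonneg hw.1).1
  have h5 : (0 : ℝ) ≤ M := M.cast_nonneg
  by_contra hcon
  rw [not_le] at hcon
  have h6 : (m : ℝ) * (τ w).re ≤ k := by
    nlinarith [mul_lt_mul_of_pos_left hcon hm0]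
  nlinarith [mul_le_mul_of_nonneg_left h6 h5]

end

end Vale.Agent.P095.All.Square
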